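import Vale.Agent.P207.H566.Cv
import Vale.Agent.P207.H476.Iso2

/-!
# P207 (helper566): joint continuity of the covariant derivative of the curvature tensor
-/

open scoped Manifold ContDiff ENNReal Topology
open Bundle MeasureTheory Set Filter

noncomputable section

set_option maxSynthPendingDepth 3
set_option linter.unusedSectionVars false
set_option linter.unusedVariables false

namespace Vale.Agent.P207.H566

open Vale.Agent.P207.D1 Vale.Agent.P207.H476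
open Vale.Agent.P255 (RMetric coefIn Gam Riem IsGeo Metric toMetric coefL
  trans cc chris chrisB chrisB_apply IsMetricOn two_le_infty)

section Coord

variable {T : Type} {E : Type} [NormedAddCommGroup E] [NormedSpace ℝ E] [FiniteDimensional ℝ E]
variable {l : Filter T} {u : E} {m : ℕ} {G : T → E → E →L[ℝ] E →L[ℝ] ℝ}
  {G0 : E → E →L[ℝ] E →L[ℝ] ℝ}

theorem Cv.inv (h : Cv l u m G G0) (hi : (G0 u).IsInvertible) (hc : ContinuousAt G0 u) :
    Cv l u m (fun t x => (G t x).inverse) (fun x => (G0 x).inverse) := by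
  refine h.comp (Φ := ContinuousLinearMap.inverse) ?_ hc
  obtain ⟨e, he⟩ := hi
  rw [← he]
  filter_upwards [ContinuousLinearEquiv.nhds e] with y hy
  obtain ⟨e', rfl⟩ := hy
  exact _root_.contDiffAt_map_inverse e'

theorem Cv.flip {F F' F'' : Type} [NormedAddCommGroup F] [NormedSpace ℝ F]
    [NormedAddCommGroup F'] [NormedSpace ℝ F'] [NormedAddCommGroup F''] [NormedSpace ℝ F'']
    {A : T → E → F →L[ℝ] F' →L[ℝ] F''} {A0 : E → F →L[ℝ] F' →L[ℝ] F''}
    (h : Cv l u m A A0) : Cv l u m (fun t x => (A t x).flip) (fun x => (A0 x).flip) := by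
  have h1 := Cv.clm ((ContinuousLinearMap.flipₗᵢ ℝ F F' F'').toContinuousLinearEquiv :
    (F →L[ℝ] F' →L[ℝ] F'') →L[ℝ] (F' →L[ℝ] F →L[ℝ] F'')) h
  exact h1

theorem tendsto_clm_apply {X F F' : Type} [NormedAddCommGroup F] [NormedSpace ℝ F]
    [NormedAddCommGroup F'] [NormedSpace ℝ F'] {l : Filter X} {f : X → F →L[ℝ] F'} {g : X → F}
    {f0 : F →L[ℝ] F'} {g0 : F} (hf : Tendsto f l (𝓝 f0)) (hg : Tendsto g l (𝓝 g0)) :
    Tendsto (fun x => f x (g x)) l (𝓝 (f0 g0)) :=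
  ((isBoundedBilinearMap_apply (𝕜 := ℝ) (E := F) (F := F')).continuous.tendsto (f0, g0)).comp
    (hf.prodMk_nhds hg)

theorem Cv.chrisB (h : Cv l u (m + 1) G G0) (hi : (G0 u).IsInvertible)
    (hc : ContinuousAt G0 u) :
    Cv l u m (fun t => P255.chrisB (G t)) (P255.chrisB G0) := by
  have h0 : Cv l u m G G0 := h.of_succ
  have h1 := h0.inv hi hc
  have h2 := h1.clm (ContinuousLinearMap.compL ℝ E (E →L[ℝ] ℝ) E)
  have h3 := h.fderiv
  have h4 := h3.flip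
  have h5 := (Cv.const (l := l) (u := u) (m := m) (tendsto_const_nhds (x :=
    (ContinuousLinearMap.flipₗᵢ ℝ E E ℝ).toContinuousLinearEquiv.toContinuousLinearMap))).clm_comp h4
  exact h2.clm_comp (((h3.add h4).sub h5).smul (1 / 2 : ℝ))

theorem Cv.curvT (h : Cv l u (m + 2) G G0) (hi : (G0 u).IsInvertible)
    (hc : ContinuousAt G0 u) :
    Cv l u m (fun t => D1.curvT (G t)) (D1.curvT G0) := by
  have h1 : Cv l u (m + 1) (fun t => P255.chrisB (G t)) (P255.chrisB G0) := h.chrisB hi hc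
  have h0 := h1.of_succ
  have h2 := h1.fderiv
  have h3 := h2.flip
  have h4 := (Cv.const (l := l) (u := u) (m := m) (tendsto_const_nhds (x :=
    (ContinuousLinearMap.compL ℝ E E E)))).clm_comp h0
  have h5 := h4.flip.clm_comp h0
  have h6 := h5.flip
  exact ((h2.sub h3).add h6).sub h5

theorem tendsto_nR (h : Cv l u 3 G G0) (hi : (G0 u).IsInvertible) (hc : ContinuousAt G0 u)
    {w x y z : T → E} {w0 x0 y0 z0 : E} (hw : Tendsto w l (𝓝 w0)) (hx : Tendsto x l (𝓝 x0))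
    (hy : Tendsto y l (𝓝 y0)) (hz : Tendsto z l (𝓝 z0)) :
    Tendsto (fun q : T × E => nR (G q.1) q.2 (w q.1) (x q.1) (y q.1) (z q.1)) (l ×ˢ 𝓝 u)
      (𝓝 (nR G0 u w0 x0 y0 z0)) := by
  have hR1 : Cv l u 1 (fun t => D1.curvT (G t)) (D1.curvT G0) := h.curvT hi hc
  have hR := hR1.of_succ
  have hdR := hR1.fderiv
  have hΓ : Cv l u 0 (fun t => P255.chrisB (G t)) (P255.chrisB G0) :=
    (h.of_succ.of_succ).chrisB hi hc
  have kw : Cv l u 0 (fun t (_ : E) => w t) (fun _ => w0) := Cv.const hw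
  have kx : Cv l u 0 (fun t (_ : E) => x t) (fun _ => x0) := Cv.const hx
  have ky : Cv l u 0 (fun t (_ : E) => y t) (fun _ => y0) := Cv.const hy
  have kz : Cv l u 0 (fun t (_ : E) => z t) (fun _ => z0) := Cv.const hz
  have e1 := (((hdR.clm_apply kw).clm_apply kx).clm_apply ky).clm_apply kz
  have eR := ((hR.clm_apply kx).clm_apply ky).clm_apply kz
  have e2 := (hΓ.clm_apply kw).clm_apply eR
  have e3 := ((hR.clm_apply ((hΓ.clm_apply kw).clm_apply kx)).clm_apply ky).clm_apply kz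
  have e4 := ((hR.clm_apply kx).clm_apply ((hΓ.clm_apply kw).clm_apply ky)).clm_apply kz
  have e5 := ((hR.clm_apply kx).clm_apply ky).clm_apply ((hΓ.clm_apply kw).clm_apply kz)
  exact ((((e1.add e2).sub e3).sub e4).sub e5).tendsto

theorem nR_smul (G : E → E →L[ℝ] E →L[ℝ] ℝ) (u w x y z : E) (a b c d : ℝ) :
    nR G u (a • w) (b • x) (c • y) (d • z) = (a * b * c * d) • nR G u w x y z := by
  unfold nR
  simp only [map_smul, smul_apply]
  module

end Coord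

section Mfd

variable {T : Type} {n : ℕ} {M : Type} [TopologicalSpace M] [ChartedSpace (EV n) M]
  [IsManifold 𝓘(ℝ, EV n) ∞ M]

/-- the bound `|∇R|² ≤ ε` at the point `u` of the chart at `a` -/
def NabAt (g : Metric (EV n) M) (ε : ℝ) (a : M) (u : EV n) : Prop :=
  ∀ w x y z : EV n, g.coef a u (nR (g.coef a) u w x y z) (nR (g.coef a) u w x y z) ≤
    ε * (g.coef a u w w * g.coef a u x x * g.coef a u y y * g.coef a u z z)

/-- the bound `|∇R|² ≤ ε` at all points -/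
def NabLe (g : Metric (EV n) M) (ε : ℝ) : Prop :=
  ∀ a, ∀ u ∈ (chartAt (EV n) a).target, NabAt g ε a u

theorem NabAt.trans {g₁ g₂ : Metric (EV n) M} {ε : ℝ} {a b : M} {u : EV n}
    (hu : u ∈ (chartAt (EV n) a).target) {τ : EV n → EV n}
    (k1 : ∀ᶠ x in 𝓝 u, τ x ∈ (chartAt (EV n) b).target)
    (k2 : ∀ᶠ x in 𝓝 u, ContDiffAt ℝ ∞ τ x)
    (k3 : ∀ᶠ x in 𝓝 u, ∀ v w, g₂.coef b (τ x) (fderiv ℝ τ x v) (fderiv ℝ τ x w) =
      g₁.coef a x v w) (h : NabAt g₂ ε b (τ u)) : NabAt g₁ ε a u := by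
  intro w x y z
  have h1 := h (fderiv ℝ τ u w) (fderiv ℝ τ u x) (fderiv ℝ τ u y) (fderiv ℝ τ u z)
  have h3 := k3.self_of_nhds
  rw [← nR_trans (g₁.isMetricOn a) (g₂.isMetricOn b) hu k1 k2 k3, h3, h3, h3, h3, h3] at h1
  exact h1

theorem nabLe_iso {g₁ g₂ : Metric (EV n) M} {ψ : Dfo n M} (h : IsIso g₁ g₂ ψ) {ε : ℝ}
    (h2 : NabLe g₂ ε) : NabLe g₁ ε := by
  intro a u hu
  set b := ψ.h ((chartAt (EV n) a).symm u) with hbd
  have hb : ψ.h ((chartAt (EV n) a).symm u) ∈ (chartAt (EV n) b).source := mem_chart_source _ _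
  obtain ⟨k1, k2, k3⟩ := h.ev a b hu hb
  exact NabAt.trans hu k1 k2 k3 (h2 b _ k1.self_of_nhds)

theorem nabAt_chart (g : Metric (EV n) M) {ε : ℝ} (a b : M) {u : EV n}
    (hu : u ∈ (chartAt (EV n) a).target)
    (hb : (chartAt (EV n) a).symm u ∈ (chartAt (EV n) b).source)
    (h : NabAt g ε b (trans (EV n) a b u)) : NabAt g ε a u := by
  have h1 := P255.eventually_trans a b hu hb
  refine NabAt.trans hu (h1.mono fun x hx => (chartAt (EV n) b).map_source hx.2)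
    (h1.mono fun x hx => P255.contDiffAt_trans a b hx.1 hx.2)
    (h1.mono fun x hx => g.compat a b x hx.1 hx.2) h

/-- local uniformity in one chart -/
theorem eventually_nabAt {l : Filter T} {G : T → Metric (EV n) M} {g0 : Metric (EV n) M} {a : M}
    {u : EV n} (hu : u ∈ (chartAt (EV n) a).target)
    (h0 : ∀ w x y z, nR (g0.coef a) u w x y z = 0)
    (hC : Cv l u 3 (fun t => (G t).coef a) (g0.coef a)) {ε : ℝ} (hε : 0 < ε) :
    ∀ᶠ q : T × EV n in l ×ˢ 𝓝 u, NabAt (G q.1) ε a q.2 := by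
  have hm := g0.isMetricOn a
  have hi := hm.isInvertible hu
  have hc : ContinuousAt (g0.coef a) u := (hm.contDiffAt hu).continuousAt
  let V4 := EV n × EV n × EV n × EV n
  let S := Metric.sphere (0 : EV n) 1
  let S4 : Set V4 := S ×ˢ (S ×ˢ (S ×ˢ S))
  have hS : IsCompact S := isCompact_sphere _ _
  have hS4 : IsCompact S4 := hS.prod (hS.prod (hS.prod hS))
  let φ : T × EV n → V4 → ℝ := fun q v =>
    (G q.1).coef a q.2 (nR ((G q.1).coef a) q.2 v.1 v.2.1 v.2.2.1 v.2.2.2)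
      (nR ((G q.1).coef a) q.2 v.1 v.2.1 v.2.2.1 v.2.2.2) -
    ε * ((G q.1).coef a q.2 v.1 v.1 * (G q.1).coef a q.2 v.2.1 v.2.1 *
      (G q.1).coef a q.2 v.2.2.1 v.2.2.1 * (G q.1).coef a q.2 v.2.2.2 v.2.2.2)
  have key : ∀ v ∈ S4, {p : (T × EV n) × V4 | φ p.1 p.2 < 0} ∈ (l ×ˢ 𝓝 u) ×ˢ 𝓝 v := by
    rintro ⟨w0, x0, y0, z0⟩ ⟨hw0, hx0, hy0, hz0⟩
    have hne : ∀ v ∈ S, v ≠ 0 := by
      intro v hv h
      rw [h] at hv
      simp [S] at hv
    let l' : Filter (T × V4) := l ×ˢ 𝓝 (w0, x0, y0, z0)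
    have hl : Tendsto (Prod.fst : T × V4 → T) l' l := tendsto_fst
    have hv : Tendsto (Prod.snd : T × V4 → V4) l' (𝓝 (w0, x0, y0, z0)) := tendsto_snd
    have hC' : Cv l' u 3 (fun t => (G t.1).coef a) (g0.coef a) := hC.comap hl
    have hw : Tendsto (fun t : T × V4 => t.2.1) l' (𝓝 w0) := hv.fst_nhds
    have hx : Tendsto (fun t : T × V4 => t.2.2.1) l' (𝓝 x0) := hv.snd_nhds.fst_nhds
    have hy : Tendsto (fun t : T × V4 => t.2.2.2.1) l' (𝓝 y0) := hv.snd_nhds.snd_nhds.fst_nhds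
    have hz : Tendsto (fun t : T × V4 => t.2.2.2.2) l' (𝓝 z0) := hv.snd_nhds.snd_nhds.snd_nhds
    have hn := tendsto_nR hC' hi hc hw hx hy hz
    rw [h0] at hn
    have hG : Tendsto (fun q : (T × V4) × EV n => (G q.1.1).coef a q.2) (l' ×ˢ 𝓝 u)
      (𝓝 (g0.coef a u)) := hC'.tendsto
    have hb : ∀ {f : (T × V4) × EV n → EV n} {f0 : EV n}, Tendsto f (l' ×ˢ 𝓝 u) (𝓝 f0) →
        Tendsto (fun q : (T × V4) × EV n => ((G q.1.1).coef a q.2 (f q) (f q) : ℝ)) (l' ×ˢ 𝓝 u)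
          (𝓝 (g0.coef a u f0 f0)) := fun hf =>
      tendsto_clm_apply (tendsto_clm_apply hG hf) hf
    have hw' : Tendsto (fun q : (T × V4) × EV n => q.1.2.1) (l' ×ˢ 𝓝 u) (𝓝 w0) :=
      hw.comp tendsto_fst
    have hx' : Tendsto (fun q : (T × V4) × EV n => q.1.2.2.1) (l' ×ˢ 𝓝 u) (𝓝 x0) :=
      hx.comp tendsto_fst
    have hy' : Tendsto (fun q : (T × V4) × EV n => q.1.2.2.2.1) (l' ×ˢ 𝓝 u) (𝓝 y0) :=
      hy.comp tendsto_fst
    have hz' : Tendsto (fun q : (T × V4) × EV n => q.1.2.2.2.2) (l' ×ˢ 𝓝 u) (𝓝 z0) :=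
      hz.comp tendsto_fst
    have hφ := (hb hn).sub (((((hb hw').mul (hb hx')).mul (hb hy')).mul (hb hz')).const_mul ε)
    have hlim : (g0.coef a u 0 0 : ℝ) - ε * (g0.coef a u w0 w0 * g0.coef a u x0 x0 *
        g0.coef a u y0 y0 * g0.coef a u z0 z0) < 0 := by
      have p1 := hm.pos u hu w0 (hne w0 hw0)
      have p2 := hm.pos u hu x0 (hne x0 hx0)
      have p3 := hm.pos u hu y0 (hne y0 hy0)
      have p4 := hm.pos u hu z0 (hne z0 hz0)
      rw [map_zero]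
      have := mul_pos hε (mul_pos (mul_pos (mul_pos p1 p2) p3) p4)
      linarith
    have hev := hφ.eventually (gt_mem_nhds hlim)
    have hperm : Tendsto (fun p : (T × EV n) × V4 => (((p.1.1, p.2), p.1.2) : (T × V4) × EV n))
        ((l ×ˢ 𝓝 u) ×ˢ 𝓝 (w0, x0, y0, z0)) (l' ×ˢ 𝓝 u) :=
      ((tendsto_fst.comp tendsto_fst).prodMk tendsto_snd).prodMk (tendsto_snd.comp tendsto_fst)
    exact hperm.eventually hev
  have h1 := hS4.mem_prod_nhdsSet_of_forall key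
  have h2 : ∀ᶠ q : T × EV n in l ×ˢ 𝓝 u, ∀ v ∈ S4, φ q v < 0 := by
    have h3 : ∀ᶠ p : (T × EV n) × V4 in (l ×ˢ 𝓝 u) ×ˢ 𝓝ˢ S4, φ p.1 p.2 < 0 := h1
    exact h3.curry.mono fun _ h => h.self_of_nhdsSet
  filter_upwards [h2] with q hq
  intro w x y z
  by_cases hw : w = 0
  · have h4 := nR_smul ((G q.1).coef a) q.2 w x y z 0 1 1 1
    rw [zero_smul, one_smul, one_smul, one_smul] at h4
    rw [hw, h4]
    simp
  by_cases hx : x = 0
  · have h4 := nR_smul ((G q.1).coef a) q.2 w x y z 1 0 1 1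
    rw [zero_smul, one_smul, one_smul, one_smul] at h4
    rw [hx, h4]
    simp
  by_cases hy : y = 0
  · have h4 := nR_smul ((G q.1).coef a) q.2 w x y z 1 1 0 1
    rw [zero_smul, one_smul, one_smul, one_smul] at h4
    rw [hy, h4]
    simp
  by_cases hz : z = 0
  · have h4 := nR_smul ((G q.1).coef a) q.2 w x y z 1 1 1 0
    rw [zero_smul, one_smul, one_smul, one_smul] at h4
    rw [hz, h4]
    simp
  have hsc : ∀ v : EV n, v ≠ 0 → ‖v‖⁻¹ • v ∈ S ∧ v = ‖v‖ • (‖v‖⁻¹ • v) := by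
    intro v hv
    have : ‖v‖ ≠ 0 := norm_ne_zero_iff.2 hv
    refine ⟨?_, ?_⟩
    · simp only [S, mem_sphere_iff_norm, sub_zero, norm_smul, norm_inv, norm_norm]
      exact inv_mul_cancel₀ this
    · rw [smul_smul, mul_inv_cancel₀ this, one_smul]
  obtain ⟨s1, e1⟩ := hsc w hw
  obtain ⟨s2, e2⟩ := hsc x hx
  obtain ⟨s3, e3⟩ := hsc y hy
  obtain ⟨s4, e4⟩ := hsc z hz
  have h5 := hq (‖w‖⁻¹ • w, ‖x‖⁻¹ • x, ‖y‖⁻¹ • y, ‖z‖⁻¹ • z) ⟨s1, s2, s3, s4⟩
  simp only [φ] at h5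
  set w' := ‖w‖⁻¹ • w
  set x' := ‖x‖⁻¹ • x
  set y' := ‖y‖⁻¹ • y
  set z' := ‖z‖⁻¹ • z
  rw [e1, e2, e3, e4, nR_smul]
  simp only [map_smul, smul_apply, smul_eq_mul]
  have h6 : 0 ≤ (‖w‖ * ‖x‖ * ‖y‖ * ‖z‖) ^ 2 := sq_nonneg _
  nlinarith [mul_nonneg h6 (neg_nonneg.2 h5.le)]

/-- **continuity of `|∇R|` at a locally symmetric metric** -/
theorem eventually_nabLe [CompactSpace M] {l : Filter T} {G : T → Metric (EV n) M}
    {g0 : Metric (EV n) M}
    (h0 : ∀ a, ∀ u ∈ (chartAt (EV n) a).target, ∀ w x y z, nR (g0.coef a) u w x y z = 0)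
    (hC : ∀ a, ∀ u ∈ (chartAt (EV n) a).target, Cv l u 3 (fun t => (G t).coef a) (g0.coef a))
    {ε : ℝ} (hε : 0 < ε) : ∀ᶠ t in l, NabLe (G t) ε := by
  have h1 : ∀ p ∈ (univ : Set M), {r : T × M | ∀ a : M, r.2 ∈ (chartAt (EV n) a).source →
      NabAt (G r.1) ε a (chartAt (EV n) a r.2)} ∈ l ×ˢ 𝓝 p := by
    intro p _
    have hs : p ∈ (chartAt (EV n) p).source := mem_chart_source _ _
    have hu : chartAt (EV n) p p ∈ (chartAt (EV n) p).target := mem_chart_target _ _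
    have h2 := eventually_nabAt hu (h0 p _ hu) (hC p _ hu) hε
    have h3 : Tendsto (fun r : T × M => (r.1, chartAt (EV n) p r.2)) (l ×ˢ 𝓝 p)
        (l ×ˢ 𝓝 (chartAt (EV n) p p)) :=
      tendsto_fst.prodMk (((chartAt (EV n) p).continuousAt hs).tendsto.comp tendsto_snd)
    have h4 : ∀ᶠ r : T × M in l ×ˢ 𝓝 p, r.2 ∈ (chartAt (EV n) p).source :=
      tendsto_snd.eventually ((chartAt (EV n) p).open_source.mem_nhds hs)
    filter_upwards [h3.eventually h2, h4] with r hr hr4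
    intro a ha
    have e1 : (chartAt (EV n) a).symm (chartAt (EV n) a r.2) = r.2 :=
      (chartAt (EV n) a).left_inv ha
    refine nabAt_chart (G r.1) a p ((chartAt (EV n) a).map_source ha) (by rw [e1]; exact hr4) ?_
    unfold P255.trans
    rw [e1]
    exact hr
  have h2 := isCompact_univ.mem_prod_nhdsSet_of_forall h1
  have h3 : ∀ᶠ r : T × M in l ×ˢ 𝓝ˢ (univ : Set M), ∀ a : M,
      r.2 ∈ (chartAt (EV n) a).source → NabAt (G r.1) ε a (chartAt (EV n) a r.2) := h2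
  have h4 := h3.curry.mono fun _ h => h.self_of_nhdsSet
  filter_upwards [h4] with t ht
  intro a u hu
  have h5 := ht ((chartAt (EV n) a).symm u) (mem_univ _) a ((chartAt (EV n) a).map_target hu)
  rw [(chartAt (EV n) a).right_inv hu] at h5
  exact h5

theorem locSymmetric_of_nabLe {g : RMetric (EV n) M} (h : ∀ ε > 0, NabLe (mt g) ε) :
    LocSymmetric g := by
  rw [locSymmetric_iff_nR]
  intro a u hu w x y z
  have hm := (mt g).isMetricOn a
  refine hm.eq_zero hu (le_antisymm ?_ (hm.nonneg hu _))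
  refine le_of_forall_pos_le_add fun δ hδ => ?_
  set C := (mt g).coef a u w w * (mt g).coef a u x x * (mt g).coef a u y y *
    (mt g).coef a u z z with hC
  have hC0 : 0 ≤ C := mul_nonneg (mul_nonneg (mul_nonneg (hm.nonneg hu _) (hm.nonneg hu _))
    (hm.nonneg hu _)) (hm.nonneg hu _)
  have h1 := h (δ / (C + 1)) (by positivity) a u hu w x y z
  rw [← hC] at h1
  have h2 : δ / (C + 1) * C ≤ δ := by
    rw [div_mul_eq_mul_div, div_le_iff₀ (by positivity)]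
    nlinarith
  linarith

end Mfd

end Vale.Agent.P207.H566
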