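import Vale.Agent.P207.H566.Rep
import Vale.Agent.P207.H992.Sum

/-!
# P207 (helper566): closeness of metrics in charts and the norms of `g' - g` on the frame bundle
-/

open scoped Manifold ContDiff ENNReal Topology
open Bundle MeasureTheory Set Filter Topology

noncomputable section

set_option maxSynthPendingDepth 3
set_option linter.unusedSectionVars false

namespace Vale.Agent.P207.H566

open Vale.Agent.P207 Vale.Agent.P207.Q Vale.Agent.P207.H955 Vale.Agent.P207.H608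
open Vale.Agent.P207.H992
open Vale.Agent.P255 (RMetric coefIn Gam Riem IsGeo Metric toMetric geo expg cc trans
  IsGeodesic coefL chris chrisB IsMetricOn covD)

section Form

variable {n : ℕ}

/-- the standard basis -/
def eb (j : Fin n) : EV n := EuclideanSpace.single j 1

/-- matrix units of bilinear forms -/
def bu (j l : Fin n) : EV n →L[ℝ] EV n →L[ℝ] ℝ :=
  (EuclideanSpace.proj j : EV n →L[ℝ] ℝ).smulRight (EuclideanSpace.proj l : EV n →L[ℝ] ℝ)

theorem bu_apply (j l : Fin n) (v w : EV n) : bu j l v w = v j * w l := rfl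

theorem eb_sum (v : EV n) : v = ∑ j, v j • (eb j : EV n) := by
  ext l
  simp [eb, Finset.sum_apply, Pi.single_apply]

theorem form_eq (B : EV n →L[ℝ] EV n →L[ℝ] ℝ) : B = ∑ j, ∑ l, (B (eb j) (eb l)) • bu j l := by
  refine ContinuousLinearMap.ext fun v => ContinuousLinearMap.ext fun w => ?_
  conv_lhs => rw [eb_sum v, eb_sum w]
  simp only [map_sum, map_smul, sum_apply, smul_apply, smul_eq_mul, bu_apply, Finset.mul_sum]
  rw [Finset.sum_comm]
  refine Finset.sum_congr rfl fun j _ => Finset.sum_congr rfl fun l _ => ?_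
  ring

theorem exists_jn_form (s : ℕ) : ∃ C : ℝ, 0 ≤ C ∧ ∀ (D : EV n → EV n →L[ℝ] EV n →L[ℝ] ℝ)
    (u : EV n) (c : ℝ), ContDiffAt ℝ s D u →
    (∀ j l : Fin n, jn s (fun p => D p (eb j) (eb l)) u ≤ c) → jn s D u ≤ C * c := by
  let Λ : Fin n → Fin n → ℝ →L[ℝ] EV n →L[ℝ] EV n →L[ℝ] ℝ := fun j l =>
    (ContinuousLinearMap.id ℝ ℝ).smulRight (bu j l)
  refine ⟨∑ j, ∑ l, ‖Λ j l‖, Finset.sum_nonneg fun j _ => Finset.sum_nonneg fun l _ =>
    (Λ j l).opNorm_nonneg, fun D u c hD hc => ?_⟩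
  have hjl : ∀ j l : Fin n, ContDiffAt ℝ s (fun p => (D p (eb j) (eb l) : ℝ)) u := fun j l =>
    (hD.clm_apply contDiffAt_const).clm_apply contDiffAt_const
  have h1 : D = fun p => ∑ j, ∑ l, Λ j l (D p (eb j) (eb l)) := by
    funext p
    exact form_eq (D p)
  have hΛ : ∀ j l : Fin n, ContDiffAt ℝ s (fun p => Λ j l (D p (eb j) (eb l))) u := fun j l =>
    (Λ j l).contDiff.contDiffAt.comp u (hjl j l)
  rw [h1]
  refine (jn_sum Finset.univ (F := fun j p => ∑ l, Λ j l (D p (eb j) (eb l))) fun j _ =>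
    ContDiffAt.sum fun l _ => hΛ j l).trans ?_
  rw [Finset.sum_mul]
  refine Finset.sum_le_sum fun j _ => ?_
  refine (jn_sum Finset.univ (F := fun l p => Λ j l (D p (eb j) (eb l))) fun l _ =>
    hΛ j l).trans ?_
  rw [Finset.sum_mul]
  refine Finset.sum_le_sum fun l _ => ?_
  exact (jn_clm (Λ j l) (hjl j l)).trans
    (mul_le_mul_of_nonneg_left (hc j l) (Λ j l).opNorm_nonneg)

theorem contDiffAt_snd_apply {k : ℕ∞ω} (i : Fin n) (y : St (Fin n) n) :
    ContDiffAt ℝ k (fun y : St (Fin n) n => y.2 i) y :=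
  ((ContinuousLinearMap.proj (R := ℝ) (φ := fun _ : Fin n => EV n) i).contDiff.comp
    contDiff_snd).contDiffAt

/-- a form evaluated on the vectors of a family -/
def evF (D : EV n → EV n →L[ℝ] EV n →L[ℝ] ℝ) (i j : Fin n) (y : St (Fin n) n) : ℝ :=
  D y.1 (y.2 i) (y.2 j)

theorem contDiffAt_evF {k : ℕ∞ω} {D : EV n → EV n →L[ℝ] EV n →L[ℝ] ℝ} (i j : Fin n)
    {y : St (Fin n) n} (hD : ContDiffAt ℝ k D y.1) : ContDiffAt ℝ k (evF D i j) y :=
  ((hD.comp y contDiffAt_fst).clm_apply (contDiffAt_snd_apply i y)).clm_apply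
    (contDiffAt_snd_apply j y)

theorem jn_evF {s : ℕ} {D : EV n → EV n →L[ℝ] EV n →L[ℝ] ℝ} (i j : Fin n)
    {y : St (Fin n) n} (hD : ContDiffAt ℝ s D y.1) {A : ℝ}
    (hA : ∀ i, jn s (fun y : St (Fin n) n => y.2 i) y ≤ A) :
    jn s (evF D i j) y ≤ (((s + 1) * 2 ^ s) * A) ^ 2 * jn s D y.1 := by
  have hc : (0 : ℝ) ≤ (s + 1) * 2 ^ s := by positivity
  have hA0 : 0 ≤ A := (jn_nonneg _ _ _).trans (hA i)
  have hD' : ContDiffAt ℝ s (fun y : St (Fin n) n => D y.1) y := hD.comp y contDiffAt_fst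
  have h0 : jn s (fun y : St (Fin n) n => D y.1) y ≤ jn s D y.1 :=
    jn_comp_of (A := fun y : St (Fin n) n => y.1)
      (L := ContinuousLinearMap.fst ℝ (EV n) (Fin n → EV n))
      (ContinuousLinearMap.norm_fst_le _ _ _) (fun x => hasFDerivAt_fst) hD
  have h1 := jn_clm_apply hD' (contDiffAt_snd_apply i y)
  have h2 := jn_clm_apply (hD'.clm_apply (contDiffAt_snd_apply i y)) (contDiffAt_snd_apply j y)
  have n0 := jn_nonneg s D y.1
  have n1 := jn_nonneg s (fun y : St (Fin n) n => D y.1) y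
  have n2 := jn_nonneg s (fun y : St (Fin n) n => y.2 i) y
  have n3 := jn_nonneg s (fun y : St (Fin n) n => y.2 j) y
  have n4 := jn_nonneg s (fun y : St (Fin n) n => D y.1 (y.2 i)) y
  have h3 : jn s (fun y : St (Fin n) n => D y.1 (y.2 i)) y ≤
      ((s + 1) * 2 ^ s) * A * jn s D y.1 := by
    refine h1.trans ?_
    have := mul_le_mul h0 (hA i) n2 n0
    nlinarith [mul_le_mul_of_nonneg_left this hc]
  refine h2.trans ?_
  have h4 : (0 : ℝ) ≤ ((s + 1) * 2 ^ s) * A * jn s D y.1 := mul_nonneg (mul_nonneg hc hA0) n0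
  have := mul_le_mul_of_nonneg_left (mul_le_mul h3 (hA j) n3 h4) hc
  refine this.trans (le_of_eq ?_)
  ring

end Form

variable {n : ℕ} {M : Type} [TopologicalSpace M] [ChartedSpace (EV n) M]
  [IsManifold 𝓘(ℝ, EV n) ∞ M] {g : RMetric (EV n) M} [NeZero n] [CompactSpace M] [T2Space M]

theorem contDiffAt_coef (g : RMetric (EV n) M) (a : M) {u : EV n}
    (hu : u ∈ (chartAt (EV n) a).target) : ContDiffAt ℝ ∞ ((mt g).coef a) u :=
  ((mt g).isMetricOn a).contDiffAt hu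

theorem rep_kS (g g' : RMetric (EV n) M) (a : M) (i j : Fin n) :
    Rep (fun p => (kS g g' i j : C(Fr g, ℝ)) p) a
      (evF (fun u => (mt g').coef a u - (mt g).coef a u) i j) := by
  intro p hp
  change kf g g' i j p = (mt g').coef a (chF a p.1).1 ((chF a p.1).2 i) ((chF a p.1).2 j) -
    (mt g).coef a (chF a p.1).1 ((chF a p.1).2 i) ((chF a p.1).2 j)
  rw [coef_eq_kf p hp, orth_chF hp i j]
  ring

variable [Nonempty (Fr g)] {m : Measure (UT g)}
  {mP : Measure (Fr g)} {φ : ℝ → UT g → UT g} (H : HorFlows g) (hP : IsMP m mP)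
  (hφ : IsGeoFlow g φ) (hmp : ∀ t, MeasurePreserving (φ t) m m)

/-- closeness in charts in terms of the sums of norms of derivatives -/
theorem cN_kS_le_jn (𝒞 : Cover n M) (s : ℕ) : ∃ C : ℝ, 0 ≤ C ∧ ∀ (g' : RMetric (EV n) M)
    (c : ℝ), (∀ i, ∀ u ∈ 𝒞.K i,
      jn s (fun u => (mt g').coef (𝒞.a i) u - (mt g).coef (𝒞.a i) u) u ≤ c) →
    ∀ i j, (frN H hP hφ hmp).cN s (kS g g' i j) ≤ C * c := by
  obtain ⟨C, hC, hle⟩ := cN_le_of_rep H hP hφ hmp 𝒞 s
  have hA : ∀ (i : Fin 𝒞.m) (j : Fin n), ∃ A : ℝ, 1 ≤ A ∧ ∀ y ∈ KO g (𝒞.a i) (𝒞.K i),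
      jn s (fun y : St (Fin n) n => y.2 j) y ≤ A := fun i j =>
    exists_jn_le (isCompact_KO (𝒞.sub i) (𝒞.compact i)) fun y _ => contDiffAt_snd_apply j y
  choose A hA1 hA using hA
  set B : ℝ := ∑ i, ∑ j, A i j with hB
  have hAB : ∀ i j, A i j ≤ B := by
    intro i j
    have h1 : A i j ≤ ∑ j, A i j := Finset.single_le_sum (f := fun j => A i j)
      (fun l _ => zero_le_one.trans (hA1 i l)) (Finset.mem_univ j)
    have h2 : ∑ j, A i j ≤ ∑ i, ∑ j, A i j := Finset.single_le_sum (f := fun i => ∑ j, A i j)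
      (fun l _ => Finset.sum_nonneg fun q _ => zero_le_one.trans (hA1 l q)) (Finset.mem_univ i)
    linarith
  refine ⟨C * (((s + 1) * 2 ^ s) * B) ^ 2, mul_nonneg hC (sq_nonneg _), fun g' c hc i j => ?_⟩
  rw [mul_assoc]
  refine hle _ (fun a => evF (fun u => (mt g').coef a u - (mt g).coef a u) i j)
    (fun a y hy => contDiffAt_evF i j ((contDiffAt_coef g' a hy).sub (contDiffAt_coef g a hy)))
    (fun a => rep_kS g g' a i j) _ fun l y hy => ?_
  have hy' := 𝒞.sub l hy.1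
  have hs : ((s : ℕ) : ℕ∞ω) ≤ (∞ : ℕ∞ω) := by exact_mod_cast le_top
  refine (jn_evF (s := s) i j (((contDiffAt_coef g' _ hy').sub
    (contDiffAt_coef g _ hy')).of_le hs) fun q => (hA l q y hy).trans (hAB l q)).trans ?_
  exact mul_le_mul_of_nonneg_left (hc l y.1 hy.1) (sq_nonneg _)

/-- **closeness in charts implies that the norms of `g' - g` on the frame bundle are small** -/
theorem cN_kS_le (𝒞 : Cover n M) (s : ℕ) : ∃ C : ℝ, 0 ≤ C ∧ ∀ (g' : RMetric (EV n) M) (c : ℝ),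
    (∀ i, ∀ j l : Fin n, ∀ q ≤ s, ∀ u ∈ 𝒞.K i,
      ‖iteratedFDeriv ℝ q (fun p => coefIn g' (𝒞.a i) p (EuclideanSpace.single j 1)
          (EuclideanSpace.single l 1)) u
        - iteratedFDeriv ℝ q (fun p => coefIn g (𝒞.a i) p (EuclideanSpace.single j 1)
          (EuclideanSpace.single l 1)) u‖ ≤ c) →
    ∀ i j, (frN H hP hφ hmp).cN s (kS g g' i j) ≤ C * c := by
  obtain ⟨C, hC, hle⟩ := cN_kS_le_jn H hP hφ hmp 𝒞 s
  obtain ⟨C', hC', hle'⟩ := exists_jn_form (n := n) s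
  refine ⟨C * (C' * (s + 1)), by positivity, fun g' c hc i j => ?_⟩
  rw [mul_assoc]
  refine hle g' _ (fun i u hu => ?_) i j
  rw [mul_assoc]
  have hu' := 𝒞.sub i hu
  have hs : ((s : ℕ) : ℕ∞ω) ≤ (∞ : ℕ∞ω) := by exact_mod_cast le_top
  have hg := contDiffAt_coef g (𝒞.a i) hu'
  have hg' := contDiffAt_coef g' (𝒞.a i) hu'
  refine hle' _ u _ ((hg'.sub hg).of_le hs) fun j l => ?_
  have h1 : ∀ q ∈ Finset.range (s + 1), ‖iteratedFDeriv ℝ q (fun p =>
      ((mt g').coef (𝒞.a i) p - (mt g).coef (𝒞.a i) p) (eb j) (eb l)) u‖ ≤ c := by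
    intro q hq
    have hqs : q ≤ s := Nat.lt_succ_iff.1 (Finset.mem_range.1 hq)
    have hq' : ((q : ℕ) : ℕ∞ω) ≤ (∞ : ℕ∞ω) := by exact_mod_cast le_top
    have e1 : ContDiffAt ℝ q (fun p => ((mt g').coef (𝒞.a i) p (eb j) (eb l) : ℝ)) u :=
      ((hg'.of_le hq').clm_apply contDiffAt_const).clm_apply contDiffAt_const
    have e2 : ContDiffAt ℝ q (fun p => ((mt g).coef (𝒞.a i) p (eb j) (eb l) : ℝ)) u :=
      ((hg.of_le hq').clm_apply contDiffAt_const).clm_apply contDiffAt_const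
    have e3 : iteratedFDeriv ℝ q (fun p => ((mt g').coef (𝒞.a i) p - (mt g).coef (𝒞.a i) p)
        (eb j) (eb l)) u = iteratedFDeriv ℝ q (fun p => ((mt g').coef (𝒞.a i) p
          (eb j) (eb l) : ℝ)) u - iteratedFDeriv ℝ q (fun p => ((mt g).coef (𝒞.a i) p
          (eb j) (eb l) : ℝ)) u := iteratedFDeriv_sub_apply e1 e2
    rw [e3]
    exact hc i j l q hqs u hu
  unfold jn
  refine (Finset.sum_le_sum h1).trans (le_of_eq ?_)
  rw [Finset.sum_const, Finset.card_range, nsmul_eq_mul]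
  push_cast
  ring

end Vale.Agent.P207.H566
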