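import Vale.Agent.P207.H566.End
import Vale.Agent.P207.H440.D3b
import Vale.Agent.P207.H992.Vol
import Vale.Agent.P207.Kat.Fin

/-!
# P207 (helper566): the statements (NBH) and (LIM) of `Kat/Spec.lean`
-/

open scoped Manifold ContDiff ENNReal Topology
open Bundle MeasureTheory Set Filter Topology

noncomputable section

set_option maxSynthPendingDepth 3
set_option linter.unusedSectionVars false

namespace Vale.Agent.P207.H566

open Vale.Agent.P207 Vale.Agent.P207.Q Vale.Agent.P207.H955 Vale.Agent.P207.H608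
open Vale.Agent.P207.H992 Vale.Agent.P207.H476 Vale.Agent.P207.Kat Vale.Agent.P207.H442
open Vale.Agent.P255 (RMetric coefIn Gam Riem IsGeo Metric toMetric geo expg cc trans
  IsGeodesic coefL chris chrisB IsMetricOn covD)

variable {n : ℕ} {M : Type} [TopologicalSpace M] [ChartedSpace (EV n) M]
  [IsManifold 𝓘(ℝ, EV n) ∞ M]

theorem exists_cover [CompactSpace M] : Nonempty (Cover n M) := by
  have h1 : ∀ p : M, ∃ K : Set (EV n), IsCompact K ∧ K ⊆ (chartAt (EV n) p).target ∧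
      (chartAt (EV n) p).symm '' K ∈ 𝓝 p := by
    intro p
    obtain ⟨K, hK, hKt, hKc⟩ := local_compact_nhds ((chartAt (EV n) p).open_target.mem_nhds
      (mem_chart_target (EV n) p))
    refine ⟨K, hKc, hKt, ?_⟩
    have h2 := (chartAt (EV n) p).symm.image_mem_nhds (x := chartAt (EV n) p p)
      (mem_chart_target (EV n) p) hK
    rwa [(chartAt (EV n) p).left_inv (mem_chart_source _ _)] at h2
  choose K hKc hKt hKn using h1
  obtain ⟨t, ht⟩ := isCompact_univ.elim_nhds_subcover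
    (fun p => (chartAt (EV n) p).symm '' K p) fun p _ => hKn p
  refine ⟨⟨t.card, fun i => (t.equivFin.symm i : M), fun i => K (t.equivFin.symm i : M),
    fun i => hKc _, fun i => hKt _, ?_⟩⟩
  refine eq_univ_of_forall fun p => ?_
  obtain ⟨q, hq, hpq⟩ := mem_iUnion₂.1 (ht.2 (mem_univ p))
  refine mem_iUnion.2 ⟨t.equivFin ⟨q, hq⟩, ?_⟩
  rw [Equiv.symm_apply_apply]
  exact hpq

variable [NeZero n] [CompactSpace M] [T2Space M] [MeasurableSpace M] [BorelSpace M]
  {g : RMetric (EV n) M} [Nonempty (Fr g)]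

/-- closeness in the charts of an arbitrary finite cover -/
theorem nbh (D : Dat g) (𝒞 : Cover n M) (s : ℕ) (δ : ℝ) (hδ : 0 < δ) : ∃ ε > (0 : ℝ),
    ∀ g' : RMetric (EV n) M,
      (∀ i, ∀ j l : Fin n, ∀ q ≤ s, ∀ u ∈ 𝒞.K i,
        ‖iteratedFDeriv ℝ q (fun p => coefIn g' (𝒞.a i) p (EuclideanSpace.single j 1)
            (EuclideanSpace.single l 1)) u
          - iteratedFDeriv ℝ q (fun p => coefIn g (𝒞.a i) p (EuclideanSpace.single j 1)
            (EuclideanSpace.single l 1)) u‖ < ε) →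
      D.hT s (kS g g') ≤ δ := by
  obtain ⟨C, hC, h⟩ := cN_kS_le (horFlows g) D.hP D.hφ D.hmp 𝒞 s
  set L : ℝ := ‖(ContinuousMap.toLp 2 D.mP ℝ (1 : C(Fr g, ℝ)) : Lp ℝ 2 D.mP)‖ with hL
  have hL0 : 0 ≤ L := norm_nonneg _
  have hn : (0 : ℝ) ≤ n := Nat.cast_nonneg n
  set A : ℝ := n * (n * (L * C)) + 1 with hA
  have hA0 : 0 < A := by positivity
  refine ⟨δ / A, div_pos hδ hA0, fun g' hg' => ?_⟩
  have h1 : ∀ i j, D.h s (kS g g' i j) ≤ L * C * (δ / A) := by
    intro i j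
    have h2 : D.h s (kS g g' i j) ≤ L * D.c s (kS g g' i j) := hN_le_cN D.S s (kS g g' i j)
    have h3 : D.c s (kS g g' i j) ≤ C * (δ / A) :=
      h g' _ (fun i j l q hq u hu => (hg' i j l q hq u hu).le) i j
    refine h2.trans ?_
    rw [mul_assoc]
    exact mul_le_mul_of_nonneg_left h3 hL0
  have h2 : D.hT s (kS g g') ≤ ∑ _i : Fin n, ∑ _j : Fin n, L * C * (δ / A) :=
    Finset.sum_le_sum fun i _ => Finset.sum_le_sum fun j _ => h1 i j
  refine h2.trans ?_
  simp only [Finset.sum_const, Finset.card_univ, Fintype.card_fin, nsmul_eq_mul]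
  have h3 : (n : ℝ) * (n * (L * C * (δ / A))) = (n * (n * (L * C))) / A * δ := by
    field_simp
  rw [h3]
  refine mul_le_of_le_one_left hδ.le ?_
  rw [div_le_one hA0]
  linarith

/-- **(NBH)** -/
theorem nbhStmt (D : Dat g) : D.NBHStmt := by
  intro s
  obtain ⟨𝒞⟩ := exists_cover (n := n) (M := M)
  refine ⟨s, 𝒞.m, 𝒞.a, 𝒞.K, fun i => ⟨𝒞.compact i, 𝒞.sub i⟩, 𝒞.cover, fun δ hδ => ?_⟩
  obtain ⟨ε, hε, h⟩ := nbh D 𝒞 s δ hδ
  refine ⟨ε, hε, fun g' hg' => ?_⟩
  have hk : IsK g g' (kS g g') := fun p i j => rfl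
  exact ⟨kS g g', hk, gt2_of_isK hk, h g' hg'⟩

theorem d3c (D : Dat g) : D3c (horFlows g) D.hP D.hφ D.hmp := by
  intro a K hK hKt s
  obtain ⟨C, hC, h⟩ := H440.coefL_le_cT D a hK hKt s
  refine ⟨(s + 1) * (C * (n * n)), fun g' δ hδ u hu => ?_⟩
  have hk : IsK g g' (kS g g') := fun p i j => rfl
  have h1 : D.cT s (kS g g') ≤ n * n * δ := by
    have h2 : D.cT s (kS g g') ≤ ∑ _i : Fin n, ∑ _j : Fin n, δ :=
      Finset.sum_le_sum fun i _ => Finset.sum_le_sum fun j _ => hδ i j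
    refine h2.trans (le_of_eq ?_)
    simp only [Finset.sum_const, Finset.card_univ, Fintype.card_fin, nsmul_eq_mul]
    ring
  have h3 : ∀ q ∈ Finset.range (s + 1), ‖iteratedFDeriv ℝ q
      (fun v => (mt g').coef a v - (mt g).coef a v) u‖ ≤ C * (n * n * δ) := by
    intro q hq
    have hqs : q ≤ s := Nat.lt_succ_iff.1 (Finset.mem_range.1 hq)
    have hq' : ((q : ℕ) : ℕ∞ω) ≤ (∞ : ℕ∞ω) := by exact_mod_cast le_top
    have e : iteratedFDeriv ℝ q (fun v => (mt g').coef a v - (mt g).coef a v) u =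
        iteratedFDeriv ℝ q ((mt g').coef a) u - iteratedFDeriv ℝ q ((mt g).coef a) u :=
      iteratedFDeriv_sub_apply ((contDiffAt_coef g' a (hKt hu)).of_le hq')
        ((contDiffAt_coef g a (hKt hu)).of_le hq')
    rw [e]
    exact (h g' _ hk q hqs u hu).trans (mul_le_mul_of_nonneg_left h1 hC)
  unfold jn
  refine (Finset.sum_le_sum h3).trans (le_of_eq ?_)
  rw [Finset.sum_const, Finset.card_range, nsmul_eq_mul]
  push_cast
  ring

/-- **(LIM)** -/
theorem limStmt (D : Dat g) : D.LIMStmt := by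
  intro hS
  obtain ⟨d, K, hK, hsob⟩ := D.exists_sob
  refine ⟨3 + d, fun g' hg' => ?_⟩
  refine locSymmetric_of_small (horFlows g) D.hP D.hφ D.hmp (d3c D) hS fun δ hδ => ?_
  obtain ⟨ψ, k, hk, hkδ⟩ := hg' (δ / K) (div_pos hδ hK)
  refine ⟨ψ, fun i j => ?_⟩
  rw [isK_unique hk] at hkδ
  have h1 : D.c 3 (kS g (pull g' ψ) i j) ≤ D.cT 3 (kS g (pull g' ψ)) := by
    have e1 : D.c 3 (kS g (pull g' ψ) i j) ≤ ∑ j, D.c 3 (kS g (pull g' ψ) i j) :=
      Finset.single_le_sum (f := fun j => D.c 3 (kS g (pull g' ψ) i j))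
        (fun l _ => D.c_nonneg 3 _) (Finset.mem_univ j)
    have e2 : ∑ j, D.c 3 (kS g (pull g' ψ) i j) ≤ D.cT 3 (kS g (pull g' ψ)) :=
      Finset.single_le_sum (f := fun i => ∑ j, D.c 3 (kS g (pull g' ψ) i j))
        (fun l _ => Finset.sum_nonneg fun q _ => D.c_nonneg 3 _) (Finset.mem_univ i)
    exact e1.trans e2
  have h2 := (hsob 3 (kS g (pull g' ψ))).trans (mul_le_mul_of_nonneg_left hkδ hK.le)
  rw [mul_div_cancel₀ _ hK.ne'] at h2
  exact h1.trans h2

end Vale.Agent.P207.H566
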