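import Vale.Agent.P207.Bridge
import Vale.Agent.P207.H566.Close
import Vale.Agent.P207.Kat.Final

/-!
# P207 (helper566): the final statement in the public language
-/

open scoped Manifold ContDiff ENNReal Topology
open Bundle MeasureTheory Set Filter Topology

noncomputable section

set_option maxSynthPendingDepth 3
set_option linter.unusedSectionVars false

namespace Vale.Agent.P207.H566

open Vale.Agent.P255 (RMetric coefIn Gam Riem)
open Vale.Agent.P207.Kat

variable {n : ℕ} {M : Type} [TopologicalSpace M] [ChartedSpace (EV n) M]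
  [IsManifold 𝓘(ℝ, EV n) ∞ M] [CompactSpace M] [T2Space M] [ConnectedSpace M]
  [MeasurableSpace M] [BorelSpace M]

section

variable [NeZero n] {g : RMetric (EV n) M} (hn : 2 ≤ n) (D : Dat g)

include hn

theorem dat_φ : D.φ = P207F.geoFlow g := ((P207F.wellDefined hn g).1 D.φ).1 D.hφ

theorem dat_μ : D.μ = P207F.vol (P207F.stdB n) g := ((P207F.wellDefined hn g).2.1 D.μ).1 D.hμ

theorem dat_m : D.m = P207F.liou (P207F.stdB n) g := by
  refine ((P207F.wellDefined hn g).2.2 D.m).1 ?_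
  have h := D.hm
  rw [dat_μ hn D] at h
  exact h

theorem hTop_eq : topEntropy (D.φ 1) = P207F.hTop g := by
  rw [dat_φ hn D]
  rfl

theorem hLiou_eq : ksEntropy D.m (D.φ 1) = P207F.hLiou (P207F.stdB n) g := by
  rw [dat_φ hn D, dat_m hn D]
  rfl

end

/-- **the final statement**, with a `C^N`-neighbourhood given by any finite cover by compact pieces
of charts -/
theorem public_of (hn : 2 ≤ n) {g₀ : RMetric (EV n) M} (hN : P207F.NegCurvature g₀)
    (hS : P207F.LocSymmetric g₀)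
    (hFIN : ∀ [NeZero n] [Nonempty (Q.Fr g₀)] (D : Dat g₀), D.FINStmt)
    (hEQ : ∀ [NeZero n] [Nonempty (Q.Fr g₀)] (D : Dat g₀), D.EQStmt) :
    ∃ N : ℕ, ∀ (m : ℕ) (a : Fin m → M) (K : Fin m → Set (EV n)),
      (∀ i, IsCompact (K i) ∧ K i ⊆ (chartAt (EV n) (a i)).target) →
      (⋃ i, (chartAt (EV n) (a i)).symm '' K i) = univ →
      ∃ ε > (0 : ℝ), ∀ g : RMetric (EV n) M, P207F.NegCurvature g →
        (∀ i, P207F.CkClose (P207F.stdB n) g₀ g N (a i) (K i) ε) →
        (P207F.hLiou (P207F.stdB n) g = P207F.hTop g ↔ P207F.LocSymmetric g) ∧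
        (P207F.vol (P207F.stdB n) g univ = P207F.vol (P207F.stdB n) g₀ univ →
          P207F.LocSymmetric g ∨
            (P207F.hLiou (P207F.stdB n) g < P207F.hTop g₀ ∧
              P207F.hTop g₀ < P207F.hTop g)) := by
  have : NeZero n := ⟨by omega⟩
  have hM : Nonempty M := inferInstance
  obtain ⟨D⟩ := Dat.nonempty (g := g₀) hM
  have hF : Nonempty (Q.Fr g₀) := by
    have := D.hP.prob
    exact nonempty_of_isProbabilityMeasure D.mP
  obtain ⟨s₁, ε₁, hε₁, F⟩ := hFIN D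
  obtain ⟨s₂, ε₂, hε₂, E⟩ := hEQ D
  refine ⟨max s₁ s₂, fun m a K hK hcov => ?_⟩
  obtain ⟨ε, hε, H⟩ := nbh D ⟨m, a, K, fun i => (hK i).1, fun i => (hK i).2, hcov⟩
    (max s₁ s₂) (min ε₁ ε₂) (lt_min hε₁ hε₂)
  refine ⟨ε, hε, fun g hg hc => ?_⟩
  obtain ⟨D'⟩ := Dat.nonempty (g := g) hM
  have hk : IsK g₀ g (H992.kS g₀ g) := fun p i j => rfl
  have hkδ := H g fun i j l q hq u hu => hc i j l q hq u hu
  have h1 : D.hT s₁ (H992.kS g₀ g) ≤ ε₁ :=
    (D.hT_mono (le_max_left _ _) _).trans (hkδ.trans (min_le_left _ _))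
  have h2 : D.hT s₂ (H992.kS g₀ g) ≤ ε₂ :=
    (D.hT_mono (le_max_right _ _) _).trans (hkδ.trans (min_le_right _ _))
  rw [← hTop_eq hn D', ← hLiou_eq hn D', ← hTop_eq hn D, ← dat_μ hn D', ← dat_μ hn D]
  refine ⟨⟨E g D' _ hg hk h2, fun h =>
    ksEntropy_eq_of_locSymmetric hn D'.hφ D'.hμ D'.hm hg h⟩, fun hvol => ?_⟩
  by_cases hL : P207.LocSymmetric g
  · exact Or.inl hL
  · right
    have h3 : ¬(topEntropy (D'.φ 1) ≤ topEntropy (D.φ 1) ∨
        ksEntropy D.m (D.φ 1) ≤ ksEntropy D'.m (D'.φ 1)) :=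
      fun h => hL (F g D' _ hg hvol hk h1 h)
    push Not at h3
    have e := ksEntropy_eq_of_locSymmetric hn D.hφ D.hμ D.hm hN hS
    exact ⟨by rw [← e]; exact h3.2, h3.1⟩

end Vale.Agent.P207.H566
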