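import Vale.Agent.P207.H566.Iter
import Vale.Agent.P207.H476.FinR

/-!
# P207 (helper566): both entropies at fixed volume near the locally symmetric metric, with orders
-/

open scoped Manifold ContDiff ENNReal Topology
open Bundle MeasureTheory Set Filter Topology

noncomputable section

set_option maxSynthPendingDepth 3
set_option linter.unusedSectionVars false

namespace Vale.Agent.P207.Kat.Dat

open Vale.Agent.P255 (RMetric coefIn Gam Riem innerAt)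
open Vale.Agent.P207 Vale.Agent.P207.Q Vale.Agent.P207.H442
open Vale.Agent.P207.H476 (Dfo pull)

variable {n : ℕ} {M : Type} [TopologicalSpace M] [ChartedSpace (EV n) M]
  [IsManifold 𝓘(ℝ, EV n) ∞ M] [NeZero n] [CompactSpace M] [T2Space M] [MeasurableSpace M]
  [BorelSpace M]

/-- both entropies at fixed volume, with the order `s` -/
def STRr {g : RMetric (EV n) M} (D : Dat g) [Nonempty (Fr g)] (s : ℕ) : Prop :=
  ∃ ε > (0 : ℝ), ∀ (g' : RMetric (EV n) M) (D' : Dat g')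
    (k : Fin n → Fin n → SmFr g), NegCurvature g' → D'.μ univ = D.μ univ → IsK g g' k →
    D.hT s k ≤ ε →
    ksEntropy D'.m (D'.φ 1) ≤ topEntropy (D.φ 1) ∧ topEntropy (D.φ 1) ≤ topEntropy (D'.φ 1) ∧
    (ksEntropy D'.m (D'.φ 1) = topEntropy (D.φ 1) ↔ LocSymmetric g') ∧
    (topEntropy (D'.φ 1) = topEntropy (D.φ 1) ↔ LocSymmetric g')

end Vale.Agent.P207.Kat.Dat

namespace Vale.Agent.P207.H566

open Vale.Agent.P255 (RMetric coefIn Gam Riem innerAt)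
open Vale.Agent.P207 Vale.Agent.P207.Q Vale.Agent.P207.H442
open Vale.Agent.P207.H476 Vale.Agent.P207.Kat Vale.Agent.P207.Kat.Dat

variable {n : ℕ} {M : Type} [TopologicalSpace M] [ChartedSpace (EV n) M]
  [IsManifold 𝓘(ℝ, EV n) ∞ M] [NeZero n] [CompactSpace M] [T2Space M] [MeasurableSpace M]
  [BorelSpace M] {g : RMetric (EV n) M} [Nonempty (Fr g)] [ConnectedSpace M]

/-- **the iteration with orders**: metrics of the same volume near `g` with too small topological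
or too large Liouville entropy have pull-backs arbitrarily close to `g` -/
theorem iterr_of (D : Dat g) (hn : 2 ≤ n) (hN : NegCurvature g) (hS : LocSymmetric g)
    {d r3 r0 : ℕ} (s4 : ℕ) (hSob : D.SobOrd d) (hB2 : D.B2Stmt) (hVOL : D.VOLStmt)
    (hPOS : D.POSr r3) (hSTEP : D.STEPr r0) :
    ∃ ε > (0 : ℝ), ∀ (g' : RMetric (EV n) M) (D' : Dat g')
      (k : Fin n → Fin n → SmFr g), NegCurvature g' → D'.μ univ = D.μ univ → IsK g g' k →
      D.hT (8 * (r0 + r3 + d + s4 + 2)) k ≤ ε → (topEntropy (D'.φ 1) ≤ topEntropy (D.φ 1) ∨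
        ksEntropy D.m (D.φ 1) ≤ ksEntropy D'.m (D'.φ 1)) →
      ∀ δ > (0 : ℝ), ∃ (ψ : Dfo n M) (k' : Fin n → Fin n → SmFr g),
        IsK g (pull g' ψ) k' ∧ D.hT s4 k' ≤ δ := by
  obtain ⟨KS, hKS, sob⟩ := D.cT_le_of_sobOrd hSob
  obtain ⟨K1, hK1, B2⟩ := hB2
  obtain ⟨K2, hK2, VOL⟩ := hVOL
  obtain ⟨K3, hK3, POS⟩ := hPOS
  set r : ℕ := r0 + r3 + d + s4 + 2 with hr
  obtain ⟨K5, hK5, STEP⟩ := hSTEP r3 r (by omega)
  obtain ⟨K6, hK6, INT⟩ := D.exists_interp r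
  -- coercivity
  have key : ∀ (g' : RMetric (EV n) M) (D' : Dat g') (k : Fin n → Fin n → SmFr g),
      NegCurvature g' → D'.μ univ = D.μ univ → IsK g g' k →
      (topEntropy (D'.φ 1) ≤ topEntropy (D.φ 1) ∨
        ksEntropy D.m (D.φ 1) ≤ ksEntropy D'.m (D'.φ 1)) →
      K1 * (KS + K3) * D.hT r k ≤ 1 → K2 * KS * D.hT r k ≤ 1 → D.hT r k ≤ 1 →
      D.hT 0 k ^ 2 ≤ (n : ℝ) ^ 2 * (K3 * (2 * n * (K1 * (KS + K3) ^ 3) + (K2 * KS ^ 2) ^ 2 + 1)) *
        (D.hT r k ^ 3 + D.hV r3 (divf (frCalc g) k) ^ 2) := by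
    intro g' D' k hN' hvol hk hent h1 h2 h3
    have hrn := D.hT_nonneg r k
    have hn0 : (0 : ℝ) < n := by exact_mod_cast (by omega : 0 < n)
    obtain ⟨y, hy, hyb, hpos⟩ := POS k (gt2_of_isK hk)
    have c2 : D.cT 2 k ≤ KS * D.hT r k :=
      (sob 2 k).trans (mul_le_mul_of_nonneg_left (D.hT_mono (by omega) k) hKS.le)
    have c0 : D.cT 0 k ≤ KS * D.hT r k :=
      (sob 0 k).trans (mul_le_mul_of_nonneg_left (D.hT_mono (by omega) k) hKS.le)
    have cy : D.cV 1 y ≤ K3 * D.hT r k :=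
      hyb.trans (mul_le_mul_of_nonneg_left (D.hT_mono (by omega) k) hK3.le)
    have hsum : D.cT 2 k + D.cV 1 y ≤ (KS + K3) * D.hT r k := by linarith
    have hsum0 : 0 ≤ D.cT 2 k + D.cV 1 y := add_nonneg (D.cT_nonneg 2 k) (D.cV_nonneg 1 y)
    have hsm : K1 * (D.cT 2 k + D.cV 1 y) ≤ 1 :=
      (mul_le_mul_of_nonneg_left hsum hK1.le).trans (by linarith)
    obtain ⟨b1, b2⟩ := B2 g' D' k y hN' hvol hk hy hsm
    have hQ := D.Q_le hn hN hS D' b1 b2 hent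
    have hcube : (D.cT 2 k + D.cV 1 y) ^ 3 ≤ (KS + K3) ^ 3 * D.hT r k ^ 3 := by
      rw [← mul_pow]
      exact pow_le_pow_left₀ hsum0 hsum 3
    have hQ2 : D.Q k y ≤ 2 * n * (K1 * (KS + K3) ^ 3) * D.hT r k ^ 3 := by
      have e1 : D.Q k y / (2 * n) ≤ K1 * (D.cT 2 k + D.cV 1 y) ^ 3 := by linarith
      have e2 : D.Q k y / (2 * n) ≤ K1 * ((KS + K3) ^ 3 * D.hT r k ^ 3) :=
        e1.trans (mul_le_mul_of_nonneg_left hcube hK1.le)
      have e3 : (0 : ℝ) < 2 * n := by linarith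
      rw [div_le_iff₀ e3] at e2
      linarith
    have hv : D.I (∑ i, k i i) ^ 2 ≤ (K2 * KS ^ 2) ^ 2 * D.hT r k ^ 3 := by
      have hc0 := D.cT_nonneg 0 k
      have f0 : K2 * D.cT 0 k ≤ 1 :=
        (mul_le_mul_of_nonneg_left c0 hK2.le).trans (by linarith)
      have f1 := VOL g' D' k hvol hk f0
      have f2 : D.cT 0 k ^ 2 ≤ KS ^ 2 * D.hT r k ^ 2 := by
        rw [← mul_pow]
        exact pow_le_pow_left₀ hc0 c0 2
      have f3 : |D.I (∑ i, k i i)| ≤ K2 * KS ^ 2 * D.hT r k ^ 2 := by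
        refine f1.trans ?_
        rw [mul_assoc]
        exact mul_le_mul_of_nonneg_left f2 hK2.le
      have f4 : D.I (∑ i, k i i) ^ 2 ≤ (K2 * KS ^ 2 * D.hT r k ^ 2) ^ 2 := by
        rw [← sq_abs]
        exact pow_le_pow_left₀ (abs_nonneg _) f3 2
      refine f4.trans ?_
      have f5 : D.hT r k ^ 4 ≤ D.hT r k ^ 3 := pow_le_pow_of_le_one hrn h3 (by norm_num)
      calc (K2 * KS ^ 2 * D.hT r k ^ 2) ^ 2 = (K2 * KS ^ 2) ^ 2 * D.hT r k ^ 4 := by ring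
        _ ≤ (K2 * KS ^ 2) ^ 2 * D.hT r k ^ 3 := mul_le_mul_of_nonneg_left f5 (sq_nonneg _)
    have hd0 : 0 ≤ D.hV r3 (divf (frCalc g) k) ^ 2 := sq_nonneg _
    have h30 : 0 ≤ D.hT r k ^ 3 := pow_nonneg hrn 3
    have hfin : D.Q k y + D.hV r3 (divf (frCalc g) k) ^ 2 + D.I (∑ i, k i i) ^ 2 ≤
        (2 * n * (K1 * (KS + K3) ^ 3) + (K2 * KS ^ 2) ^ 2 + 1) *
          (D.hT r k ^ 3 + D.hV r3 (divf (frCalc g) k) ^ 2) := by
      have g1 : 0 ≤ 2 * n * (K1 * (KS + K3) ^ 3) := by positivity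
      have g2 : 0 ≤ (K2 * KS ^ 2) ^ 2 := sq_nonneg _
      nlinarith [mul_nonneg g1 hd0, mul_nonneg g2 hd0]
    calc D.hT 0 k ^ 2 ≤ (n : ℝ) ^ 2 * D.I (∑ i, ∑ j, k i j * k i j) := D.hT_zero_sq_le k
      _ ≤ (n : ℝ) ^ 2 * (K3 * ((2 * n * (K1 * (KS + K3) ^ 3) + (K2 * KS ^ 2) ^ 2 + 1) *
          (D.hT r k ^ 3 + D.hV r3 (divf (frCalc g) k) ^ 2))) := by
        refine mul_le_mul_of_nonneg_left (hpos.trans ?_) (sq_nonneg _)
        exact mul_le_mul_of_nonneg_left hfin hK3.le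
      _ = _ := by ring
  set K7 : ℝ := (n : ℝ) ^ 2 * (K3 * (2 * n * (K1 * (KS + K3) ^ 3) + (K2 * KS ^ 2) ^ 2 + 1))
    with hK7
  have hK70 : 0 ≤ K7 := by positivity
  set C : ℝ := K5 + K6 + K7 + 1 with hC
  have hC5 : K5 ≤ C := by linarith
  have hC6 : K6 ≤ C := by linarith
  have hC7 : K7 ≤ C := by linarith
  have hC1 : 1 ≤ C := by linarith
  set η : ℝ := 1 / (K1 * (KS + K3) + K2 * KS + K5 + 1) with hη
  have hden : 0 < K1 * (KS + K3) + K2 * KS + K5 + 1 := by positivity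
  have hη0 : 0 < η := by positivity
  have hsmall : ∀ e : ℝ, 0 ≤ e → e ≤ η →
      K1 * (KS + K3) * e ≤ 1 ∧ K2 * KS * e ≤ 1 ∧ e ≤ 1 ∧ K5 * e ≤ 1 := by
    intro e he he'
    have h1 : (K1 * (KS + K3) + K2 * KS + K5 + 1) * e ≤ 1 := by
      have := mul_le_mul_of_nonneg_left he' hden.le
      rwa [hη, mul_one_div_cancel hden.ne'] at this
    have p1 : 0 ≤ K1 * (KS + K3) * e := by positivity
    have p2 : 0 ≤ K2 * KS * e := by positivity
    have p3 : 0 ≤ K5 * e := by positivity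
    refine ⟨?_, ?_, ?_, ?_⟩ <;> nlinarith
  obtain ⟨ε, hε, newt⟩ := H832.newton C η hC1 hη0
  refine ⟨ε, hε, ?_⟩
  intro g' D' k hN' hvol hk hkε hent δ hδ
  -- the states
  let G : Type := {q : Dfo n M × (Fin n → Fin n → SmFr g) // IsK g (pull g' q.1) q.2}
  obtain ⟨q, -, hq⟩ := newt (G := G) (fun _ _ => True) (fun q => D.hT 0 q.1.2)
    (fun q => D.hT r q.1.2) (fun q => D.hT (8 * r) q.1.2)
    (fun q => D.hV r3 (divf (frCalc g) q.1.2))
    (fun _ => trivial) (fun _ _ _ _ _ => trivial)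
    (fun q => D.hT_nonneg _ _) (fun q => D.hT_nonneg _ _) (fun q => D.hT_nonneg _ _)
    (fun q => D.hV_nonneg _ _) (fun q => D.hT_mono (Nat.zero_le _) _)
    (fun q => by
      refine (INT q.1.2).trans ?_
      have h1 := D.hT_nonneg 0 q.1.2
      have h2 := D.hT_nonneg (8 * r) q.1.2
      gcongr)
    (⟨(Dfo.refl n M, k), isK_refl hk⟩ : G)
    (by
      rintro ⟨⟨ψ, k₁⟩, hk₁⟩ - he
      have hiso := isIso_pull g' ψ
      obtain ⟨D₁⟩ := Dat.nonempty (g := pull g' ψ) inferInstance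
      obtain ⟨f1, f2, f3⟩ := iso_facts D₁ D' hiso
      obtain ⟨s1, s2, s3, -⟩ := hsmall _ (D.hT_nonneg r k₁) he
      refine (key (pull g' ψ) D₁ k₁ (negCurvature_iso hiso hN') (f1.trans hvol) hk₁ ?_
        s1 s2 s3).trans ?_
      · rw [f2, f3]
        exact hent
      · have := D.hT_nonneg r k₁
        gcongr)
    (by
      rintro ⟨⟨ψ, k₁⟩, hk₁⟩ - he
      obtain ⟨-, -, -, s4⟩ := hsmall _ (D.hT_nonneg r k₁) he
      obtain ⟨ψ', k', hk', t1, t2, t3⟩ := STEP (pull g' ψ) k₁ hk₁ s4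
      have h1 := D.hT_nonneg r k₁
      have h2 := D.hT_nonneg (8 * r) k₁
      refine ⟨⟨(ψ.comp ψ', k'), isK_comp hk'⟩, trivial, t1.trans ?_, t2.trans ?_, t3.trans ?_⟩
      · exact mul_le_mul_of_nonneg_right hC5 h2
      · exact mul_le_mul_of_nonneg_right hC5 h1
      · exact mul_le_mul_of_nonneg_right hC5 (sq_nonneg _))
    hkε δ hδ
  exact ⟨q.1.1, q.1.2, q.2, (D.hT_mono (by omega) _).trans hq⟩

/-- **both entropies at fixed volume, with orders** -/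
theorem strr_of (D : Dat g) (hn : 2 ≤ n) (hN : NegCurvature g) (hS : LocSymmetric g)
    {d r3 r0 s4 : ℕ} (hs4 : 2 + d ≤ s4) (hSob : D.SobOrd d) (hB2 : D.B2Stmt)
    (hVOL : D.VOLStmt) (hPOS : D.POSr r3) (hSTEP : D.STEPr r0) (hLIM : D.LIMr s4) :
    D.STRr (8 * (r0 + r3 + d + s4 + 2)) := by
  obtain ⟨KS, hKS, sob⟩ := D.cT_le_of_sobOrd hSob
  have LIM := hLIM hS
  obtain ⟨ε, hε, IT⟩ := iterr_of D hn hN hS s4 hSob hB2 hVOL hPOS hSTEP
  refine ⟨ε, hε, fun g' D' k hN' hvol hk hkε => ?_⟩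
  have e := ksEntropy_eq_of_locSymmetric hn D.hφ D.hμ D.hm hN hS
  -- if one of the strict inequalities fails
  have key : (topEntropy (D'.φ 1) ≤ topEntropy (D.φ 1) ∨
      ksEntropy D.m (D.φ 1) ≤ ksEntropy D'.m (D'.φ 1)) → LocSymmetric g' ∧
      ksEntropy D'.m (D'.φ 1) = topEntropy (D.φ 1) ∧
      topEntropy (D'.φ 1) = topEntropy (D.φ 1) := by
    intro hent
    have h1 := IT g' D' k hN' hvol hk hkε hent
    have hL : LocSymmetric g' := LIM g' fun δ hδ => by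
      obtain ⟨ψ, k', hk', h2⟩ := h1 δ hδ
      exact ⟨ψ, k', hk', h2⟩
    have e' := ksEntropy_eq_of_locSymmetric hn D'.hφ D'.hμ D'.hm hN' hL
    obtain ⟨h2, h3⟩ := entropy_le_of_close D hB2 D' hN' hvol hKS sob fun δ hδ => by
      obtain ⟨ψ, k', hk', h2⟩ := h1 δ hδ
      exact ⟨ψ, k', hk', (D.hT_mono hs4 _).trans h2⟩
    rw [e] at h2
    have h4 : topEntropy (D'.φ 1) = topEntropy (D.φ 1) := le_antisymm (by rw [← e']; exact h3) h2
    exact ⟨hL, e'.trans h4, h4⟩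
  have hle1 : topEntropy (D.φ 1) ≤ topEntropy (D'.φ 1) := by
    rcases le_total (topEntropy (D.φ 1)) (topEntropy (D'.φ 1)) with h | h
    · exact h
    · exact (key (Or.inl h)).2.2.ge
  have hle2 : ksEntropy D'.m (D'.φ 1) ≤ topEntropy (D.φ 1) := by
    rcases le_total (ksEntropy D.m (D.φ 1)) (ksEntropy D'.m (D'.φ 1)) with h | h
    · exact (key (Or.inr h)).2.1.le
    · rwa [e] at h
  have hLoc : LocSymmetric g' → ksEntropy D'.m (D'.φ 1) = topEntropy (D.φ 1) ∧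
      topEntropy (D'.φ 1) = topEntropy (D.φ 1) := by
    intro hL
    have e' := ksEntropy_eq_of_locSymmetric hn D'.hφ D'.hμ D'.hm hN' hL
    have h1 : topEntropy (D'.φ 1) = topEntropy (D.φ 1) :=
      le_antisymm (by rw [← e']; exact hle2) hle1
    exact ⟨e'.trans h1, h1⟩
  exact ⟨hle2, hle1, ⟨fun h => (key (Or.inr (by rw [e, h]))).1, fun h => (hLoc h).1⟩,
    ⟨fun h => (key (Or.inl h.le)).1, fun h => (hLoc h).2⟩⟩

end Vale.Agent.P207.H566
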