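import Vale.Agent.P207.H566.Nab
import Vale.Agent.P207.H566.Nbh
import Vale.Agent.P207.H440.FrLC

/-!
# P207 (helper566): a metric with pull-backs arbitrarily close to a locally symmetric metric is
locally symmetric
-/

open scoped Manifold ContDiff ENNReal Topology
open Bundle MeasureTheory Set Filter Topology

noncomputable section

set_option maxSynthPendingDepth 3
set_option linter.unusedSectionVars false

namespace Vale.Agent.P207.H566

open Vale.Agent.P207 Vale.Agent.P207.Q Vale.Agent.P207.H955 Vale.Agent.P207.H608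
open Vale.Agent.P207.H992 Vale.Agent.P207.H476
open Vale.Agent.P255 (RMetric coefIn Gam Riem IsGeo Metric toMetric geo expg cc trans
  IsGeodesic coefL chris chrisB IsMetricOn covD)

variable {n : ℕ} {M : Type} [TopologicalSpace M] [ChartedSpace (EV n) M]
  [IsManifold 𝓘(ℝ, EV n) ∞ M] {g : RMetric (EV n) M} [NeZero n] [CompactSpace M] [T2Space M]
variable [Nonempty (Fr g)] {m : Measure (UT g)}
  {mP : Measure (Fr g)} {φ : ℝ → UT g → UT g} (H : HorFlows g) (hP : IsMP m mP)
  (hφ : IsGeoFlow g φ) (hmp : ∀ t, MeasurePreserving (φ t) m m)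

/-- the norms on the frame bundle control the derivatives in charts -/
def D3c : Prop := ∀ (a : M) (K : Set (EV n)), IsCompact K → K ⊆ (chartAt (EV n) a).target →
  ∀ s : ℕ, ∃ C : ℝ, ∀ (g' : RMetric (EV n) M) (δ : ℝ),
    (∀ i j, (frN H hP hφ hmp).cN s (kS g g' i j) ≤ δ) → ∀ u ∈ K,
      jn s (fun v => (mt g').coef a v - (mt g).coef a v) u ≤ C * δ

/-- the sum of the `C^s` norms of the components of `g' - g` -/
def cS (s : ℕ) (g' : RMetric (EV n) M) : ℝ := ∑ i, ∑ j, (frN H hP hφ hmp).cN s (kS g g' i j)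

theorem cN_nonneg {ι : Type} [Fintype ι] {N : Type} [TopologicalSpace N] [CompactSpace N]
    [MeasurableSpace N] {μ : Measure N} (S : H395.NSys ι N μ) (s : ℕ) (u : S.A) :
    0 ≤ S.cN s u := by
  induction s generalizing u with
  | zero => exact norm_nonneg (u : C(N, ℝ))
  | succ s ih => exact add_nonneg (ih u) (Finset.sum_nonneg fun a _ => ih _)

theorem cN_le_cS (s : ℕ) (g' : RMetric (EV n) M) (i j : Fin n) :
    (frN H hP hφ hmp).cN s (kS g g' i j) ≤ cS H hP hφ hmp s g' := by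
  have h1 : (frN H hP hφ hmp).cN s (kS g g' i j) ≤
      ∑ j, (frN H hP hφ hmp).cN s (kS g g' i j) :=
    Finset.single_le_sum (f := fun j => (frN H hP hφ hmp).cN s (kS g g' i j))
      (fun l _ => cN_nonneg _ _ _) (Finset.mem_univ j)
  have h2 : ∑ j, (frN H hP hφ hmp).cN s (kS g g' i j) ≤ cS H hP hφ hmp s g' :=
    Finset.single_le_sum (f := fun i => ∑ j, (frN H hP hφ hmp).cN s (kS g g' i j))
      (fun l _ => Finset.sum_nonneg fun q _ => cN_nonneg _ _ _) (Finset.mem_univ i)
  exact h1.trans h2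

/-- convergence in charts along the filter of small norms -/
theorem cv_coef (hD : D3c H hP hφ hmp) (s : ℕ) (a : M) {u : EV n}
    (hu : u ∈ (chartAt (EV n) a).target) :
    Cv (comap (cS H hP hφ hmp s) (𝓝 0)) u s (fun g' => (mt g').coef a) ((mt g).coef a) := by
  obtain ⟨K, hK, hKc, hKt⟩ : ∃ K : Set (EV n), K ∈ 𝓝 u ∧ IsCompact K ∧
      K ⊆ (chartAt (EV n) a).target := by
    obtain ⟨K, h1, h2, h3⟩ := local_compact_nhds ((chartAt (EV n) a).open_target.mem_nhds hu)
    exact ⟨K, h1, h3, h2⟩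
  obtain ⟨C, hC⟩ := hD a K hKc hKt s
  set l := comap (cS H hP hφ hmp s) (𝓝 0) with hl
  have hsm : ∀ᶠ y in 𝓝 u, ContDiffAt ℝ ∞ ((mt g).coef a) y := by
    filter_upwards [(chartAt (EV n) a).open_target.mem_nhds hu] with y hy
    exact contDiffAt_coef g a hy
  have h1 : Cv l u s (fun _ : RMetric (EV n) M => (mt g).coef a) ((mt g).coef a) := Cv.fixed hsm
  have h2 : Cv l u s (fun (g' : RMetric (EV n) M) v => (mt g').coef a v - (mt g).coef a v)
      (fun _ => 0) := by
    refine Cv.of_small ?_ fun i hi => ?_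
    · have h3 : ∀ᶠ y in 𝓝 u, y ∈ (chartAt (EV n) a).target :=
        (chartAt (EV n) a).open_target.mem_nhds hu
      filter_upwards [tendsto_snd.eventually h3] with q hq
      exact (contDiffAt_coef q.1 a hq).sub (contDiffAt_coef g a hq)
    · have h3 : Tendsto (fun q : RMetric (EV n) M × EV n => C * cS H hP hφ hmp s q.1)
          (l ×ˢ 𝓝 u) (𝓝 0) := by
        have h5 : Tendsto (cS H hP hφ hmp s) l (𝓝 0) := tendsto_comap
        have h4 : Tendsto (fun q : RMetric (EV n) M × EV n => cS H hP hφ hmp s q.1)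
            (l ×ˢ 𝓝 u) (𝓝 0) := h5.comp tendsto_fst
        simpa using h4.const_mul C
      refine squeeze_zero' (Eventually.of_forall fun q => norm_nonneg _) ?_ h3
      have h5 : ∀ᶠ y in 𝓝 u, y ∈ K := hK
      filter_upwards [tendsto_snd.eventually h5] with q hq
      exact (norm_iter_le_jn hi _ _).trans
        (hC q.1 _ (fun i j => cN_le_cS H hP hφ hmp s q.1 i j) q.2 hq)
  refine (h1.add h2).congr (Eventually.of_forall fun q => ?_) (Eventually.of_forall fun x => ?_)
  · simp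
  · simp

/-- **the end of the iteration** -/
theorem locSymmetric_of_small (hD : D3c H hP hφ hmp) (hs : LocSymmetric g)
    {g' : RMetric (EV n) M}
    (h : ∀ δ > (0 : ℝ), ∃ ψ : Dfo n M,
      ∀ i j, (frN H hP hφ hmp).cN 3 (kS g (pull g' ψ) i j) ≤ δ) : LocSymmetric g' := by
  refine locSymmetric_of_nabLe fun ε hε => ?_
  have h0 : ∀ a, ∀ u ∈ (chartAt (EV n) a).target, ∀ w x y z,
      nR ((mt g).coef a) u w x y z = 0 := locSymmetric_iff_nR.1 hs
  have h1 := eventually_nabLe (G := fun g' : RMetric (EV n) M => mt g') h0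
    (fun a u hu => cv_coef H hP hφ hmp hD 3 a hu) hε
  obtain ⟨t, ht, hts⟩ := mem_comap.1 h1
  obtain ⟨δ, hδ, hδt⟩ := Metric.mem_nhds_iff.1 ht
  obtain ⟨ψ, hψ⟩ := h (δ / (2 * (n * n + 1))) (by positivity)
  have h2 : cS H hP hφ hmp 3 (pull g' ψ) < δ := by
    unfold cS
    have h3 : ∑ i : Fin n, ∑ j : Fin n, (frN H hP hφ hmp).cN 3 (kS g (pull g' ψ) i j) ≤
        ∑ _i : Fin n, ∑ _j : Fin n, δ / (2 * (n * n + 1)) :=
      Finset.sum_le_sum fun i _ => Finset.sum_le_sum fun j _ => hψ i j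
    refine h3.trans_lt ?_
    simp only [Finset.sum_const, Finset.card_univ, Fintype.card_fin, nsmul_eq_mul]
    have h4 : (0 : ℝ) < 2 * (n * n + 1) := by positivity
    rw [← mul_assoc, mul_div_assoc', div_lt_iff₀ h4]
    nlinarith [mul_nonneg (Nat.cast_nonneg (α := ℝ) n) (Nat.cast_nonneg (α := ℝ) n)]
  have h5 : pull g' ψ ∈ (cS H hP hφ hmp 3) ⁻¹' t := by
    refine hδt ?_
    have h6 : 0 ≤ cS H hP hφ hmp 3 (pull g' ψ) :=
      Finset.sum_nonneg fun i _ => Finset.sum_nonneg fun j _ => cN_nonneg _ _ _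
    rw [Metric.mem_ball, Real.dist_eq, sub_zero, abs_of_nonneg h6]
    exact h2
  have h6 : NabLe (mt (pull g' ψ)) ε := hts h5
  exact nabLe_iso (isIso_pull g' ψ).symm h6

end Vale.Agent.P207.H566
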