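import Vale.Agent.P207.Bridge

/-!
# P207 (helper566): the Liouville entropy is at most the topological entropy
-/

open scoped Manifold ContDiff ENNReal Topology
open Bundle MeasureTheory Set Filter Topology

noncomputable section

namespace Vale.Agent.P207.H566

open Vale.Agent.P255 (RMetric coefIn Gam Riem)

variable {n : ℕ} {M : Type} [TopologicalSpace M] [ChartedSpace (EV n) M]
  [IsManifold 𝓘(ℝ, EV n) ∞ M] [CompactSpace M] [T2Space M] [ConnectedSpace M]
  [MeasurableSpace M] [BorelSpace M]

theorem ks_le_top (hn : 2 ≤ n) {g : RMetric (EV n) M} {φ : ℝ → P207.UT g → P207.UT g}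
    {μ : Measure M} {m : Measure (P207.UT g)} (hφ : P207.IsGeoFlow g φ)
    (hμ : P207.IsRiemVol g μ) (hm : P207.IsLiouville g μ m) (h : P207.NegCurvature g) :
    P207.ksEntropy m (φ 1) ≤ P207.topEntropy (φ 1) := by
  have := hm.1
  have h' := P207.npc_of_neg h
  have h2 := P207.stretch hφ hφ h' h' (ν := m)
    (fun t => P207.IsLiouville.measurePreserving (by omega) hφ hμ hm t) one_pos
    (by simp [P207.nrm_self])
  simpa using h2

theorem hLiou_le_hTop (hn : 2 ≤ n) {g : RMetric (EV n) M} (hN : P207F.NegCurvature g) :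
    P207F.hLiou (P207F.stdB n) g ≤ P207F.hTop g := by
  have hW := P207F.wellDefined hn g
  exact ks_le_top hn ((hW.1 _).2 rfl) ((hW.2.1 _).2 rfl) ((hW.2.2 _).2 rfl) hN

end Vale.Agent.P207.H566
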