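import Vale.Agent.P207.H256.PublicR
import Vale.Agent.P207.H566.Le

/-!
# P207 (helper566): the statement of the hand-in, from the positivity
-/

open scoped Manifold ContDiff ENNReal Topology
open Bundle MeasureTheory Set Filter Topology

noncomputable section

set_option maxSynthPendingDepth 3
set_option linter.unusedSectionVars false

namespace Vale.Agent.P207F

open Vale.Agent.P255 (RMetric)

/-- the statement of the hand-in, from the positivity -/
theorem near_of (n : ℕ) (hn : 2 ≤ n) (M : Type) [TopologicalSpace M] [CompactSpace M] [T2Space M]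
    [ConnectedSpace M] [ChartedSpace (EV n) M] [IsManifold 𝓘(ℝ, EV n) ∞ M] [MeasurableSpace M]
    [BorelSpace M]
    (hPOS : ∀ g₀ : RMetric (EV n) M, NegCurvature g₀ → LocSymmetric g₀ → QuatCayley g₀ →
      ∀ [NeZero n] [Nonempty (P207.Q.Fr g₀)] (D : P207.Kat.Dat g₀),
        D.POSr (4 * P207.H256.dF n + 6)) :
    (∀ g : RMetric (EV n) M, WellDefined (stdB n) g) ∧
    ∀ g₀ : RMetric (EV n) M, NegCurvature g₀ → LocSymmetric g₀ → QuatCayley g₀ →
      ∀ (m : ℕ) (a : Fin m → M) (K : Fin m → Set (EV n)), ChartCover a K →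
      ∃ ε > (0 : ℝ), ∀ g : RMetric (EV n) M,
        (∀ i, CkClose (stdB n) g₀ g (65 * (n * (n + 1) / 2) + 112) (a i) (K i) ε) →
        NegCurvature g ∧ hLiou (stdB n) g ≤ hTop g ∧
        (hLiou (stdB n) g = hTop g ↔ LocSymmetric g) ∧
        (vol (stdB n) g Set.univ = vol (stdB n) g₀ Set.univ →
          hLiou (stdB n) g ≤ hTop g₀ ∧ hTop g₀ ≤ hTop g ∧
          (hLiou (stdB n) g = hTop g₀ ↔ LocSymmetric g) ∧
          (hTop g = hTop g₀ ↔ LocSymmetric g)) := by
  refine ⟨fun g => wellDefined hn g, fun g₀ hN hS hQ m a K hK => ?_⟩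
  obtain ⟨ε, hε, h⟩ := P207.H256.public_of_posr hn hN hS
    (fun [NeZero n] [Nonempty (P207.Q.Fr g₀)] (D : P207.Kat.Dat g₀) => hPOS g₀ hN hS hQ D) m a K hK
  rw [P207.H256.oN_eq n] at h
  refine ⟨ε, hε, fun g hc => ?_⟩
  obtain ⟨h1, h2, h3⟩ := h g hc
  exact ⟨h1, P207.H566.hLiou_le_hTop hn h1, h2, h3⟩

end Vale.Agent.P207F
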