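import Vale.Agent.P207.H566.Close
import Vale.Agent.P207.Kat.Final

/-!
# P207 (helper566): both entropies at fixed volume near the locally symmetric metric
-/

open scoped Manifold ContDiff ENNReal Topology
open Bundle MeasureTheory Set Filter Topology

noncomputable section

set_option maxSynthPendingDepth 3
set_option linter.unusedSectionVars false

namespace Vale.Agent.P207.H566

open Vale.Agent.P255 (RMetric coefIn Gam Riem innerAt)
open Vale.Agent.P207 Vale.Agent.P207.Q Vale.Agent.P207.H442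
open Vale.Agent.P207.H476 Vale.Agent.P207.Kat Vale.Agent.P207.Kat.Dat

variable {n : ℕ} {M : Type} [TopologicalSpace M] [ChartedSpace (EV n) M]
  [IsManifold 𝓘(ℝ, EV n) ∞ M] [NeZero n] [CompactSpace M] [T2Space M] [MeasurableSpace M]
  [BorelSpace M] {g : RMetric (EV n) M} (D : Dat g) [Nonempty (Fr g)]

/-! ### the form `Q` for the zero test field -/

theorem c0_mul_le (u v : SmFr g) : D.c 0 (u * v) ≤ D.c 0 u * D.c 0 v :=
  norm_mul_le (u : C(Fr g, ℝ)) (v : C(Fr g, ℝ))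

theorem abs_I_le (u : SmFr g) : |D.I u| ≤ D.c 0 u := by
  have h1 : D.I u = ∫ p, (u : C(Fr g, ℝ)) p ∂D.mP := rfl
  rw [h1, ← Real.norm_eq_abs]
  have h2 := norm_integral_le_of_norm_le_const (μ := D.mP) (C := D.c 0 u)
    (f := fun p => (u : C(Fr g, ℝ)) p)
    (Eventually.of_forall fun p => (u : C(Fr g, ℝ)).norm_coe_le_norm p)
  simpa using h2

theorem c0_sum_le {κ : Type} (s : Finset κ) (u : κ → SmFr g) :
    D.c 0 (∑ i ∈ s, u i) ≤ ∑ i ∈ s, D.c 0 (u i) := by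
  classical
  induction s using Finset.induction_on with
  | empty => simp only [Finset.sum_empty]; exact (norm_zero (E := C(Fr g, ℝ))).le
  | insert a s ha ih =>
    rw [Finset.sum_insert ha, Finset.sum_insert ha]
    exact (norm_add_le ((u a : SmFr g) : C(Fr g, ℝ)) ((∑ i ∈ s, u i : SmFr g) : C(Fr g, ℝ))).trans
      (add_le_add le_rfl ih)

theorem c0_le_cT (k : Fin n → Fin n → SmFr g) (i j : Fin n) : D.c 0 (k i j) ≤ D.cT 0 k := by
  have h1 : D.c 0 (k i j) ≤ ∑ j, D.c 0 (k i j) :=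
    Finset.single_le_sum (f := fun j => D.c 0 (k i j)) (fun j _ => D.c_nonneg 0 _)
      (Finset.mem_univ j)
  have h2 : ∑ j, D.c 0 (k i j) ≤ D.cT 0 k :=
    Finset.single_le_sum (f := fun i => ∑ j, D.c 0 (k i j))
      (fun i _ => Finset.sum_nonneg fun j _ => D.c_nonneg 0 _) (Finset.mem_univ i)
  exact h1.trans h2

theorem abs_Q_zero_le (k : Fin n → Fin n → SmFr g) :
    |D.Q k 0| ≤ (n + n * n + n * n) * D.cT 0 k ^ 2 := by
  set κ := D.cT 0 k with hκ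
  have hκ0 : 0 ≤ κ := D.cT_nonneg 0 k
  have hm : ∀ i j p q, |D.I (k i j * k p q)| ≤ κ ^ 2 := by
    intro i j p q
    refine (abs_I_le D _).trans ((c0_mul_le D _ _).trans ?_)
    rw [sq]
    exact mul_le_mul (c0_le_cT D k i j) (c0_le_cT D k p q) (D.c_nonneg 0 _) hκ0
  have e0 : D.Q k 0 = n * ((1 / 4) * D.I (k 0 0 * k 0 0)) +
      (1 / 4) * D.I ((∑ i, k i i) * ∑ i, k i i) - (1 / 2) * D.I (∑ i, ∑ j, k i j * k i j) := by
    unfold Dat.Q Qf Qint
    simp only [Pi.zero_apply, map_zero, mul_zero, Finset.sum_const_zero, smul_zero, sub_zero,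
      zero_add, map_smul, smul_eq_mul]
  have h1 := hm 0 0 0 0
  have h2 : |D.I ((∑ i, k i i) * ∑ i, k i i)| ≤ n * n * κ ^ 2 := by
    rw [Finset.sum_mul_sum, map_sum]
    refine (Finset.abs_sum_le_sum_abs _ _).trans ?_
    have : ∀ i ∈ (Finset.univ : Finset (Fin n)), |D.I (∑ j, k i i * k j j)| ≤ n * κ ^ 2 := by
      intro i _
      rw [map_sum]
      refine (Finset.abs_sum_le_sum_abs _ _).trans ?_
      refine (Finset.sum_le_sum fun j _ => hm i i j j).trans (le_of_eq ?_)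
      simp
    refine (Finset.sum_le_sum this).trans (le_of_eq ?_)
    simp
    ring
  have h3 : |D.I (∑ i, ∑ j, k i j * k i j)| ≤ n * n * κ ^ 2 := by
    rw [map_sum]
    refine (Finset.abs_sum_le_sum_abs _ _).trans ?_
    have : ∀ i ∈ (Finset.univ : Finset (Fin n)), |D.I (∑ j, k i j * k i j)| ≤ n * κ ^ 2 := by
      intro i _
      rw [map_sum]
      refine (Finset.abs_sum_le_sum_abs _ _).trans ?_
      refine (Finset.sum_le_sum fun j _ => hm i j i j).trans (le_of_eq ?_)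
      simp
    refine (Finset.sum_le_sum this).trans (le_of_eq ?_)
    simp
    ring
  rw [e0]
  have hn : (0 : ℝ) ≤ n := Nat.cast_nonneg n
  rw [abs_le] at h1 h2 h3 ⊢
  have hk2 : 0 ≤ κ ^ 2 := sq_nonneg _
  have h4 : 0 ≤ (n : ℝ) * n * κ ^ 2 := by positivity
  have h5 : 0 ≤ (n : ℝ) * κ ^ 2 := by positivity
  have h6 := mul_le_mul_of_nonneg_left h1.2 hn
  have h7 := mul_le_mul_of_nonneg_left h1.1 hn
  constructor <;> nlinarith

/-- the two inequalities for metrics with pull-backs arbitrarily close to `g` -/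
theorem entropy_le_of_close (hB2 : D.B2Stmt) {g' : RMetric (EV n) M} (D' : Dat g')
    [Nonempty M] (hN' : NegCurvature g') (hvol : D'.μ univ = D.μ univ) {d : ℕ} {KS : ℝ}
    (hKS : 0 < KS) (sob : ∀ (s : ℕ) (k : Fin n → Fin n → SmFr g),
      D.cT s k ≤ KS * D.hT (s + d) k)
    (h : ∀ δ > (0 : ℝ), ∃ (ψ : Dfo n M) (k' : Fin n → Fin n → SmFr g),
      IsK g (pull g' ψ) k' ∧ D.hT (2 + d) k' ≤ δ) :
    ksEntropy D.m (D.φ 1) ≤ topEntropy (D'.φ 1) ∧
      ksEntropy D'.m (D'.φ 1) ≤ topEntropy (D.φ 1) := by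
  obtain ⟨K, hK, B2⟩ := hB2
  have hn : (0 : ℝ) < n := Nat.cast_pos.2 (NeZero.pos n)
  set C : ℝ := n + n * n + n * n with hC
  have hC0 : 0 ≤ C := by positivity
  have key : ∀ δ : ℝ, 0 < δ → δ ≤ 1 → K * δ ≤ 1 →
      ksEntropy D.m (D.φ 1) ≤ ENNReal.ofReal (1 + (C + K) * δ) * topEntropy (D'.φ 1) ∧
      ksEntropy D'.m (D'.φ 1) ≤ ENNReal.ofReal (1 + (C + K) * δ) * topEntropy (D.φ 1) := by
    intro δ hδ hδ1 hKδ
    obtain ⟨ψ, k, hk, hkδ⟩ := h (δ / KS) (div_pos hδ hKS)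
    have h2 : D.cT 2 k ≤ δ := by
      refine (sob 2 k).trans ?_
      have := mul_le_mul_of_nonneg_left hkδ hKS.le
      rwa [mul_div_cancel₀ _ hKS.ne'] at this
    have h0 : D.cT 0 k ≤ δ := (D.cT_mono (Nat.zero_le 2) k).trans h2
    have hc0 := D.cT_nonneg 0 k
    have hc2 := D.cT_nonneg 2 k
    have hiso := isIso_pull g' ψ
    obtain ⟨D₁⟩ := Dat.nonempty (g := pull g' ψ) inferInstance
    obtain ⟨f1, f2, f3⟩ := iso_facts D₁ D' hiso
    have hy : GAdm (0 : Fin n → SmFr g) := by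
      refine ⟨rfl, fun B _ p i => ?_⟩
      simp only [Pi.zero_apply, map_zero, mul_zero, Finset.sum_const_zero]
    have hcV : D.cV 1 (0 : Fin n → SmFr g) = 0 := by
      unfold Dat.cV
      refine Finset.sum_eq_zero fun i _ => ?_
      have h3 : D.c 1 (0 : SmFr g) = 0 := by
        have e1 : ∀ a, D.S.X a (0 : SmFr g) = 0 := fun a => map_zero _
        change H395.NSys.cN D.S 0 (0 : SmFr g) + ∑ a, H395.NSys.cN D.S 0 (D.S.X a (0 : SmFr g)) = 0
        have e2 : H395.NSys.cN D.S 0 (0 : SmFr g) = 0 := norm_zero (E := C(Fr g, ℝ))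
        have e3 : ∑ a, H395.NSys.cN D.S 0 (D.S.X a (0 : SmFr g)) = 0 :=
          Finset.sum_eq_zero fun a _ => by
            rw [e1 a]
            exact e2
        rw [e2, e3, add_zero]
      exact h3
    have hsm : K * (D.cT 2 k + D.cV 1 (0 : Fin n → SmFr g)) ≤ 1 := by
      rw [hcV, add_zero]
      exact (mul_le_mul_of_nonneg_left h2 hK.le).trans hKδ
    obtain ⟨b1, b2⟩ := B2 (pull g' ψ) D₁ k 0 (negCurvature_iso hiso hN') (f1.trans hvol) hk hy hsm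
    rw [hcV, add_zero] at b1 b2
    have hQ := abs_Q_zero_le D k
    have hA : 1 - D.Q k 0 / (2 * n) + K * D.cT 2 k ^ 3 ≤ 1 + (C + K) * δ := by
      have g1 : D.cT 0 k ^ 2 ≤ δ := by nlinarith
      have g2 : D.cT 2 k ^ 3 ≤ δ := by
        have : D.cT 2 k ^ 3 ≤ δ ^ 3 := pow_le_pow_left₀ hc2 h2 3
        have h5 : δ ^ 3 ≤ δ := by
          have := pow_le_pow_of_le_one hδ.le hδ1 (show 1 ≤ 3 by norm_num)
          simpa using this
        exact this.trans h5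
      have g3 : -D.Q k 0 / (2 * n) ≤ C * δ := by
        rw [div_le_iff₀ (by positivity)]
        have g4 : -D.Q k 0 ≤ C * D.cT 0 k ^ 2 := (neg_le_abs _).trans hQ
        have g5 : C * D.cT 0 k ^ 2 ≤ C * δ := mul_le_mul_of_nonneg_left g1 hC0
        have g6 : (1 : ℝ) ≤ 2 * n := by
          have : (1 : ℝ) ≤ n := by exact_mod_cast (NeZero.one_le (n := n))
          linarith
        have g7 : 0 ≤ C * δ := mul_nonneg hC0 hδ.le
        nlinarith
      have g4 : K * D.cT 2 k ^ 3 ≤ K * δ := mul_le_mul_of_nonneg_left g2 hK.le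
      have g5 : -(D.Q k 0 / (2 * n)) = -D.Q k 0 / (2 * n) := (neg_div _ _).symm
      linarith
    rw [f2] at b1
    rw [f3] at b2
    exact ⟨b1.trans (mul_le_mul_left (ENNReal.ofReal_le_ofReal hA) _),
      b2.trans (mul_le_mul_left (ENNReal.ofReal_le_ofReal hA) _)⟩
  have hlim : ∀ x : ℝ≥0∞, Tendsto (fun δ : ℝ => ENNReal.ofReal (1 + (C + K) * δ) * x)
      (𝓝[>] 0) (𝓝 x) := by
    intro x
    have h1 : Tendsto (fun δ : ℝ => ENNReal.ofReal (1 + (C + K) * δ)) (𝓝[>] 0) (𝓝 1) := by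
      have h2 : Continuous fun δ : ℝ => ENNReal.ofReal (1 + (C + K) * δ) :=
        ENNReal.continuous_ofReal.comp (by fun_prop)
      have h3 := h2.tendsto 0
      rw [mul_zero, add_zero, ENNReal.ofReal_one] at h3
      exact h3.mono_left nhdsWithin_le_nhds
    have h2 := ENNReal.Tendsto.mul_const (b := x) h1 (Or.inl one_ne_zero)
    rwa [one_mul] at h2
  have hev : ∀ᶠ δ : ℝ in 𝓝[>] 0, 0 < δ ∧ δ ≤ 1 ∧ K * δ ≤ 1 := by
    have h1 : ∀ᶠ δ : ℝ in 𝓝[>] 0, δ < min 1 (1 / K) :=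
      nhdsWithin_le_nhds (Iio_mem_nhds (lt_min one_pos (one_div_pos.2 hK)))
    filter_upwards [h1, self_mem_nhdsWithin] with δ h2 h3
    refine ⟨h3, (h2.trans_le (min_le_left _ _)).le, ?_⟩
    have h4 := (h2.trans_le (min_le_right _ _)).le
    rwa [le_div_iff₀ hK, mul_comm] at h4
  exact ⟨ge_of_tendsto (hlim _) (hev.mono fun δ hδ => (key δ hδ.1 hδ.2.1 hδ.2.2).1),
    ge_of_tendsto (hlim _) (hev.mono fun δ hδ => (key δ hδ.1 hδ.2.1 hδ.2.2).2)⟩

variable [ConnectedSpace M]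

/-- **the iteration**: metrics of the same volume near `g` with too small topological or too
large Liouville entropy have pull-backs arbitrarily close to `g` -/
theorem iter_of (hn : 2 ≤ n) (hN : NegCurvature g) (hS : LocSymmetric g) (hB2 : D.B2Stmt)
    (hVOL : D.VOLStmt) (hPOS : D.POSStmt) (hSTEP : D.STEPStmt) (s4 : ℕ) :
    ∃ s : ℕ, ∃ ε > (0 : ℝ), ∀ (g' : RMetric (EV n) M) (D' : Dat g')
      (k : Fin n → Fin n → SmFr g), NegCurvature g' → D'.μ univ = D.μ univ → IsK g g' k →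
      D.hT s k ≤ ε → (topEntropy (D'.φ 1) ≤ topEntropy (D.φ 1) ∨
        ksEntropy D.m (D.φ 1) ≤ ksEntropy D'.m (D'.φ 1)) →
      ∀ δ > (0 : ℝ), ∃ (ψ : Dfo n M) (k' : Fin n → Fin n → SmFr g),
        IsK g (pull g' ψ) k' ∧ D.hT s4 k' ≤ δ := by
  obtain ⟨dS, KS, hKS, sob⟩ := D.exists_sob
  obtain ⟨K1, hK1, B2⟩ := hB2
  obtain ⟨K2, hK2, VOL⟩ := hVOL
  obtain ⟨K3, r3, hK3, POS⟩ := hPOS
  obtain ⟨r0, STEP⟩ := hSTEP
  set r : ℕ := r0 + r3 + dS + s4 + 2 with hr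
  obtain ⟨K5, hK5, STEP⟩ := STEP r3 r (by omega)
  obtain ⟨K6, hK6, INT⟩ := D.exists_interp r
  -- coercivity
  have key : ∀ (g' : RMetric (EV n) M) (D' : Dat g') (k : Fin n → Fin n → SmFr g),
      NegCurvature g' → D'.μ univ = D.μ univ → IsK g g' k →
      (topEntropy (D'.φ 1) ≤ topEntropy (D.φ 1) ∨
        ksEntropy D.m (D.φ 1) ≤ ksEntropy D'.m (D'.φ 1)) →
      K1 * (KS + K3) * D.hT r k ≤ 1 → K2 * KS * D.hT r k ≤ 1 → D.hT r k ≤ 1 →
      D.hT 0 k ^ 2 ≤ (n : ℝ) ^ 2 * (K3 * (2 * n * (K1 * (KS + K3) ^ 3) + (K2 * KS ^ 2) ^ 2 + 1)) *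
        (D.hT r k ^ 3 + D.hV r3 (divf (frCalc g) k) ^ 2) := by
    intro g' D' k hN' hvol hk hent h1 h2 h3
    have hrn := D.hT_nonneg r k
    have hn0 : (0 : ℝ) < n := by exact_mod_cast (by omega : 0 < n)
    obtain ⟨y, hy, hyb, hpos⟩ := POS k (gt2_of_isK hk)
    have c2 : D.cT 2 k ≤ KS * D.hT r k :=
      (sob 2 k).trans (mul_le_mul_of_nonneg_left (D.hT_mono (by omega) k) hKS.le)
    have c0 : D.cT 0 k ≤ KS * D.hT r k :=
      (sob 0 k).trans (mul_le_mul_of_nonneg_left (D.hT_mono (by omega) k) hKS.le)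
    have cy : D.cV 1 y ≤ K3 * D.hT r k :=
      hyb.trans (mul_le_mul_of_nonneg_left (D.hT_mono (by omega) k) hK3.le)
    have hsum : D.cT 2 k + D.cV 1 y ≤ (KS + K3) * D.hT r k := by linarith
    have hsum0 : 0 ≤ D.cT 2 k + D.cV 1 y := add_nonneg (D.cT_nonneg 2 k) (D.cV_nonneg 1 y)
    have hsm : K1 * (D.cT 2 k + D.cV 1 y) ≤ 1 :=
      (mul_le_mul_of_nonneg_left hsum hK1.le).trans (by linarith)
    obtain ⟨b1, b2⟩ := B2 g' D' k y hN' hvol hk hy hsm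
    have hQ := D.Q_le hn hN hS D' b1 b2 hent
    have hcube : (D.cT 2 k + D.cV 1 y) ^ 3 ≤ (KS + K3) ^ 3 * D.hT r k ^ 3 := by
      rw [← mul_pow]
      exact pow_le_pow_left₀ hsum0 hsum 3
    have hQ2 : D.Q k y ≤ 2 * n * (K1 * (KS + K3) ^ 3) * D.hT r k ^ 3 := by
      have e1 : D.Q k y / (2 * n) ≤ K1 * (D.cT 2 k + D.cV 1 y) ^ 3 := by linarith
      have e2 : D.Q k y / (2 * n) ≤ K1 * ((KS + K3) ^ 3 * D.hT r k ^ 3) :=
        e1.trans (mul_le_mul_of_nonneg_left hcube hK1.le)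
      have e3 : (0 : ℝ) < 2 * n := by linarith
      rw [div_le_iff₀ e3] at e2
      linarith
    have hv : D.I (∑ i, k i i) ^ 2 ≤ (K2 * KS ^ 2) ^ 2 * D.hT r k ^ 3 := by
      have hc0 := D.cT_nonneg 0 k
      have f0 : K2 * D.cT 0 k ≤ 1 :=
        (mul_le_mul_of_nonneg_left c0 hK2.le).trans (by linarith)
      have f1 := VOL g' D' k hvol hk f0
      have f2 : D.cT 0 k ^ 2 ≤ KS ^ 2 * D.hT r k ^ 2 := by
        rw [← mul_pow]
        exact pow_le_pow_left₀ hc0 c0 2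
      have f3 : |D.I (∑ i, k i i)| ≤ K2 * KS ^ 2 * D.hT r k ^ 2 := by
        refine f1.trans ?_
        rw [mul_assoc]
        exact mul_le_mul_of_nonneg_left f2 hK2.le
      have f4 : D.I (∑ i, k i i) ^ 2 ≤ (K2 * KS ^ 2 * D.hT r k ^ 2) ^ 2 := by
        rw [← sq_abs]
        exact pow_le_pow_left₀ (abs_nonneg _) f3 2
      refine f4.trans ?_
      have f5 : D.hT r k ^ 4 ≤ D.hT r k ^ 3 := pow_le_pow_of_le_one hrn h3 (by norm_num)
      calc (K2 * KS ^ 2 * D.hT r k ^ 2) ^ 2 = (K2 * KS ^ 2) ^ 2 * D.hT r k ^ 4 := by ring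
        _ ≤ (K2 * KS ^ 2) ^ 2 * D.hT r k ^ 3 := mul_le_mul_of_nonneg_left f5 (sq_nonneg _)
    have hd0 : 0 ≤ D.hV r3 (divf (frCalc g) k) ^ 2 := sq_nonneg _
    have h30 : 0 ≤ D.hT r k ^ 3 := pow_nonneg hrn 3
    have hfin : D.Q k y + D.hV r3 (divf (frCalc g) k) ^ 2 + D.I (∑ i, k i i) ^ 2 ≤
        (2 * n * (K1 * (KS + K3) ^ 3) + (K2 * KS ^ 2) ^ 2 + 1) *
          (D.hT r k ^ 3 + D.hV r3 (divf (frCalc g) k) ^ 2) := by
      have g1 : 0 ≤ 2 * n * (K1 * (KS + K3) ^ 3) := by positivity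
      have g2 : 0 ≤ (K2 * KS ^ 2) ^ 2 := sq_nonneg _
      nlinarith [mul_nonneg g1 hd0, mul_nonneg g2 hd0]
    calc D.hT 0 k ^ 2 ≤ (n : ℝ) ^ 2 * D.I (∑ i, ∑ j, k i j * k i j) := D.hT_zero_sq_le k
      _ ≤ (n : ℝ) ^ 2 * (K3 * ((2 * n * (K1 * (KS + K3) ^ 3) + (K2 * KS ^ 2) ^ 2 + 1) *
          (D.hT r k ^ 3 + D.hV r3 (divf (frCalc g) k) ^ 2))) := by
        refine mul_le_mul_of_nonneg_left (hpos.trans ?_) (sq_nonneg _)
        exact mul_le_mul_of_nonneg_left hfin hK3.le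
      _ = _ := by ring
  set K7 : ℝ := (n : ℝ) ^ 2 * (K3 * (2 * n * (K1 * (KS + K3) ^ 3) + (K2 * KS ^ 2) ^ 2 + 1))
    with hK7
  have hK70 : 0 ≤ K7 := by positivity
  set C : ℝ := K5 + K6 + K7 + 1 with hC
  have hC5 : K5 ≤ C := by linarith
  have hC6 : K6 ≤ C := by linarith
  have hC7 : K7 ≤ C := by linarith
  have hC1 : 1 ≤ C := by linarith
  set η : ℝ := 1 / (K1 * (KS + K3) + K2 * KS + K5 + 1) with hη
  have hden : 0 < K1 * (KS + K3) + K2 * KS + K5 + 1 := by positivity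
  have hη0 : 0 < η := by positivity
  have hsmall : ∀ e : ℝ, 0 ≤ e → e ≤ η →
      K1 * (KS + K3) * e ≤ 1 ∧ K2 * KS * e ≤ 1 ∧ e ≤ 1 ∧ K5 * e ≤ 1 := by
    intro e he he'
    have h1 : (K1 * (KS + K3) + K2 * KS + K5 + 1) * e ≤ 1 := by
      have := mul_le_mul_of_nonneg_left he' hden.le
      rwa [hη, mul_one_div_cancel hden.ne'] at this
    have p1 : 0 ≤ K1 * (KS + K3) * e := by positivity
    have p2 : 0 ≤ K2 * KS * e := by positivity
    have p3 : 0 ≤ K5 * e := by positivity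
    refine ⟨?_, ?_, ?_, ?_⟩ <;> nlinarith
  obtain ⟨ε, hε, newt⟩ := H832.newton C η hC1 hη0
  refine ⟨8 * r, ε, hε, ?_⟩
  intro g' D' k hN' hvol hk hkε hent δ hδ
  -- the states
  let G : Type := {q : Dfo n M × (Fin n → Fin n → SmFr g) // IsK g (pull g' q.1) q.2}
  obtain ⟨q, -, hq⟩ := newt (G := G) (fun _ _ => True) (fun q => D.hT 0 q.1.2)
    (fun q => D.hT r q.1.2) (fun q => D.hT (8 * r) q.1.2)
    (fun q => D.hV r3 (divf (frCalc g) q.1.2))
    (fun _ => trivial) (fun _ _ _ _ _ => trivial)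
    (fun q => D.hT_nonneg _ _) (fun q => D.hT_nonneg _ _) (fun q => D.hT_nonneg _ _)
    (fun q => D.hV_nonneg _ _) (fun q => D.hT_mono (Nat.zero_le _) _)
    (fun q => by
      refine (INT q.1.2).trans ?_
      have h1 := D.hT_nonneg 0 q.1.2
      have h2 := D.hT_nonneg (8 * r) q.1.2
      gcongr)
    (⟨(Dfo.refl n M, k), isK_refl hk⟩ : G)
    (by
      rintro ⟨⟨ψ, k₁⟩, hk₁⟩ - he
      have hiso := isIso_pull g' ψ
      obtain ⟨D₁⟩ := Dat.nonempty (g := pull g' ψ) inferInstance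
      obtain ⟨f1, f2, f3⟩ := iso_facts D₁ D' hiso
      obtain ⟨s1, s2, s3, -⟩ := hsmall _ (D.hT_nonneg r k₁) he
      refine (key (pull g' ψ) D₁ k₁ (negCurvature_iso hiso hN') (f1.trans hvol) hk₁ ?_
        s1 s2 s3).trans ?_
      · rw [f2, f3]
        exact hent
      · have := D.hT_nonneg r k₁
        gcongr)
    (by
      rintro ⟨⟨ψ, k₁⟩, hk₁⟩ - he
      obtain ⟨-, -, -, s4⟩ := hsmall _ (D.hT_nonneg r k₁) he
      obtain ⟨ψ', k', hk', t1, t2, t3⟩ := STEP (pull g' ψ) k₁ hk₁ s4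
      have h1 := D.hT_nonneg r k₁
      have h2 := D.hT_nonneg (8 * r) k₁
      refine ⟨⟨(ψ.comp ψ', k'), isK_comp hk'⟩, trivial, t1.trans ?_, t2.trans ?_, t3.trans ?_⟩
      · exact mul_le_mul_of_nonneg_right hC5 h2
      · exact mul_le_mul_of_nonneg_right hC5 h1
      · exact mul_le_mul_of_nonneg_right hC5 (sq_nonneg _))
    hkε δ hδ
  exact ⟨q.1.1, q.1.2, q.2, (D.hT_mono (by omega) _).trans hq⟩

/-- **both entropies at fixed volume** -/
theorem tri_of (hn : 2 ≤ n) (hN : NegCurvature g) (hS : LocSymmetric g) (hB2 : D.B2Stmt)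
    (hVOL : D.VOLStmt) (hPOS : D.POSStmt) (hSTEP : D.STEPStmt) :
    ∃ s : ℕ, ∃ ε > (0 : ℝ), ∀ (g' : RMetric (EV n) M) (D' : Dat g')
      (k : Fin n → Fin n → SmFr g), NegCurvature g' → D'.μ univ = D.μ univ → IsK g g' k →
      D.hT s k ≤ ε →
      ksEntropy D'.m (D'.φ 1) ≤ topEntropy (D.φ 1) ∧ topEntropy (D.φ 1) ≤ topEntropy (D'.φ 1) ∧
      (ksEntropy D'.m (D'.φ 1) = topEntropy (D.φ 1) ↔ LocSymmetric g') ∧
      (topEntropy (D'.φ 1) = topEntropy (D.φ 1) ↔ LocSymmetric g') := by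
  obtain ⟨d, KS, hKS, sob⟩ := D.exists_sob
  obtain ⟨s₀, LIM⟩ := limStmt D hS
  obtain ⟨s, ε, hε, IT⟩ := iter_of D hn hN hS hB2 hVOL hPOS hSTEP (max s₀ (2 + d))
  refine ⟨s, ε, hε, fun g' D' k hN' hvol hk hkε => ?_⟩
  have e := ksEntropy_eq_of_locSymmetric hn D.hφ D.hμ D.hm hN hS
  -- if one of the strict inequalities fails
  have key : (topEntropy (D'.φ 1) ≤ topEntropy (D.φ 1) ∨
      ksEntropy D.m (D.φ 1) ≤ ksEntropy D'.m (D'.φ 1)) → LocSymmetric g' ∧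
      ksEntropy D'.m (D'.φ 1) = topEntropy (D.φ 1) ∧
      topEntropy (D'.φ 1) = topEntropy (D.φ 1) := by
    intro hent
    have h1 := IT g' D' k hN' hvol hk hkε hent
    have hL : LocSymmetric g' := LIM g' fun δ hδ => by
      obtain ⟨ψ, k', hk', h2⟩ := h1 δ hδ
      exact ⟨ψ, k', hk', (D.hT_mono (le_max_left _ _) _).trans h2⟩
    have e' := ksEntropy_eq_of_locSymmetric hn D'.hφ D'.hμ D'.hm hN' hL
    obtain ⟨h2, h3⟩ := entropy_le_of_close D hB2 D' hN' hvol hKS sob fun δ hδ => by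
      obtain ⟨ψ, k', hk', h2⟩ := h1 δ hδ
      exact ⟨ψ, k', hk', (D.hT_mono (le_max_right _ _) _).trans h2⟩
    rw [e] at h2
    have h4 : topEntropy (D'.φ 1) = topEntropy (D.φ 1) := le_antisymm (by rw [← e']; exact h3) h2
    exact ⟨hL, e'.trans h4, h4⟩
  have hle1 : topEntropy (D.φ 1) ≤ topEntropy (D'.φ 1) := by
    rcases le_total (topEntropy (D.φ 1)) (topEntropy (D'.φ 1)) with h | h
    · exact h
    · exact (key (Or.inl h)).2.2.ge
  have hle2 : ksEntropy D'.m (D'.φ 1) ≤ topEntropy (D.φ 1) := by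
    rcases le_total (ksEntropy D.m (D.φ 1)) (ksEntropy D'.m (D'.φ 1)) with h | h
    · exact (key (Or.inr h)).2.1.le
    · rwa [e] at h
  have hLoc : LocSymmetric g' → ksEntropy D'.m (D'.φ 1) = topEntropy (D.φ 1) ∧
      topEntropy (D'.φ 1) = topEntropy (D.φ 1) := by
    intro hL
    have e' := ksEntropy_eq_of_locSymmetric hn D'.hφ D'.hμ D'.hm hN' hL
    have h1 : topEntropy (D'.φ 1) = topEntropy (D.φ 1) :=
      le_antisymm (by rw [← e']; exact hle2) hle1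
    exact ⟨e'.trans h1, h1⟩
  exact ⟨hle2, hle1, ⟨fun h => (key (Or.inr (by rw [e, h]))).1, fun h => (hLoc h).1⟩,
    ⟨fun h => (key (Or.inl h.le)).1, fun h => (hLoc h).2⟩⟩

end Vale.Agent.P207.H566
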