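import Vale.Agent.P207.H566.Jn
import Vale.Agent.P207.H955.FrN

/-!
# P207 (helper566): norms of functions on the frame bundle from norms in charts
-/

open scoped Manifold ContDiff ENNReal Topology
open Bundle MeasureTheory Set Filter Topology

noncomputable section

set_option maxSynthPendingDepth 3
set_option linter.unusedSectionVars false

namespace Vale.Agent.P207.H566

open Vale.Agent.P207 Vale.Agent.P207.Q Vale.Agent.P207.H955
open Vale.Agent.P255 (RMetric coefIn Gam Riem IsGeo Metric toMetric geo expg cc trans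
  IsGeodesic coefL chris chrisB IsMetricOn covD)

variable {n : ℕ} {M : Type} [TopologicalSpace M] [ChartedSpace (EV n) M]
  [IsManifold 𝓘(ℝ, EV n) ∞ M] {g : RMetric (EV n) M} {V : Type} [NormedAddCommGroup V]
  [NormedSpace ℝ V]

/-- the function `f` on the frame bundle is given in the chart at `a` by `F`, a function on the
space of all families of vectors -/
def Rep (f : Fr g → V) (a : M) (F : St (Fin n) n → V) : Prop :=
  ∀ p : Fr g, p.pt ∈ (chartAt (EV n) a).source → f p = F (chF a p.1)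

theorem Rep.dZ [NeZero n] {Z : ChField g} {Ψ : ℝ → Fr g → Fr g} (h : IsFlow Z Ψ)
    {f : Fr g → V} (hf : SmF f) {a : M} {F : St (Fin n) n → V} (hr : Rep f a F)
    (hF : ∀ y : St (Fin n) n, y.1 ∈ (chartAt (EV n) a).target → DifferentiableAt ℝ F y) :
    Rep (Q.dZ Z f) a (LZ (Z.Z a) F) := by
  intro p hp
  have h0 : Ψ 0 p = p := h.zero p
  have hp0 : (Ψ 0 p).pt ∈ (chartAt (EV n) a).source := by rw [h0]; exact hp
  have h1 := h.hasDerivAt hf p 0
  rw [h0] at h1
  have h2 := h.eqn a p 0 hp0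
  rw [h0] at h2
  have h3 : HasFDerivAt F (fderiv ℝ F (chF a p.1)) (chF a (Ψ 0 p).1) := by
    rw [h0]
    exact (hF _ ((chartAt (EV n) a).map_source hp)).hasFDerivAt
  have h4 := h3.comp_hasDerivAt 0 h2
  refine h1.unique (h4.congr_of_eventuallyEq ?_)
  filter_upwards [h.eventually_source hp0] with r hq
  exact hr (Ψ r p) hq

/-- the orthonormal families over `K` in the chart at `a` -/
def KO (g : RMetric (EV n) M) (a : M) (K : Set (EV n)) : Set (St (Fin n) n) :=
  {y | y.1 ∈ K ∧ Orth ((mt g).coef a y.1) y.2}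

theorem KO_eq {a : M} {K : Set (EV n)} (hK : K ⊆ (chartAt (EV n) a).target) :
    KO g a K = (fun p : Fr g => chF a p.1) ''
      {p | p.pt ∈ (chartAt (EV n) a).symm '' K} := by
  ext y
  constructor
  · rintro ⟨h1, h2⟩
    refine ⟨mkFr g a y (hK h1) h2, ⟨y.1, h1, rfl⟩, chF_mkFr g a y (hK h1) h2⟩
  · rintro ⟨p, ⟨u, hu, hup⟩, rfl⟩
    have hps : p.pt ∈ (chartAt (EV n) a).source := by
      rw [← hup]
      exact (chartAt (EV n) a).map_target (hK hu)
    refine ⟨?_, orth_chF hps⟩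
    change chartAt (EV n) a p.pt ∈ K
    rw [← hup, (chartAt (EV n) a).right_inv (hK hu)]
    exact hu

theorem isCompact_KO [NeZero n] [CompactSpace M] [T2Space M] {a : M} {K : Set (EV n)}
    (hK : K ⊆ (chartAt (EV n) a).target) (hc : IsCompact K) : IsCompact (KO g a K) := by
  rw [KO_eq hK]
  have h1 : IsCompact ((chartAt (EV n) a).symm '' K) :=
    hc.image_of_continuousOn ((chartAt (EV n) a).continuousOn_symm.mono hK)
  have h2 : IsCompact {p : Fr g | p.pt ∈ (chartAt (EV n) a).symm '' K} :=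
    (h1.isClosed.preimage Fr.continuous_pt).isCompact
  refine h2.image_of_continuousOn fun p hp => ?_
  obtain ⟨u, hu, hup⟩ := hp
  have hps : p.pt ∈ (chartAt (EV n) a).source := by
    rw [← hup]
    exact (chartAt (EV n) a).map_target (hK hu)
  exact (ContinuousAt.comp (g := chF a) (continuousAt_chF a (f := p.1) hps)
    Fr.continuous_val.continuousAt).continuousWithinAt

/-- finitely many compact pieces of charts which cover `M` -/
structure Cover (n : ℕ) (M : Type) [TopologicalSpace M] [ChartedSpace (EV n) M] where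
  m : ℕ
  a : Fin m → M
  K : Fin m → Set (EV n)
  compact : ∀ i, IsCompact (K i)
  sub : ∀ i, K i ⊆ (chartAt (EV n) (a i)).target
  cover : (⋃ i, (chartAt (EV n) (a i)).symm '' K i) = univ

theorem Cover.exists_mem (𝒞 : Cover n M) (p : Fr g) :
    ∃ i, p.pt ∈ (chartAt (EV n) (𝒞.a i)).source ∧ chF (𝒞.a i) p.1 ∈ KO g (𝒞.a i) (𝒞.K i) := by
  have h1 : p.pt ∈ (⋃ i, (chartAt (EV n) (𝒞.a i)).symm '' 𝒞.K i) := by
    rw [𝒞.cover]
    exact mem_univ _
  obtain ⟨i, u, hu, hup⟩ := mem_iUnion.1 h1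
  have hps : p.pt ∈ (chartAt (EV n) (𝒞.a i)).source := by
    rw [← hup]
    exact (chartAt (EV n) (𝒞.a i)).map_target (𝒞.sub i hu)
  refine ⟨i, hps, ?_, orth_chF hps⟩
  change chartAt (EV n) (𝒞.a i) p.pt ∈ 𝒞.K i
  rw [← hup, (chartAt (EV n) (𝒞.a i)).right_inv (𝒞.sub i hu)]
  exact hu

variable [NeZero n] [CompactSpace M] [T2Space M] [Nonempty (Fr g)] {m : Measure (UT g)}
  {mP : Measure (Fr g)} {φ : ℝ → UT g → UT g} (H : HorFlows g) (hP : IsMP m mP)
  (hφ : IsGeoFlow g φ) (hmp : ∀ t, MeasurePreserving (φ t) m m)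

/-- the norm of a function on the frame bundle is bounded by the norms of representations in
charts -/
theorem cN_le_of_rep (𝒞 : Cover n M) (s : ℕ) : ∃ C : ℝ, 0 ≤ C ∧ ∀ (f : SmFr g)
    (F : M → St (Fin n) n → ℝ),
    (∀ a, ∀ y : St (Fin n) n, y.1 ∈ (chartAt (EV n) a).target → ContDiffAt ℝ ∞ (F a) y) →
    (∀ a, Rep (fun p => (f : C(Fr g, ℝ)) p) a (F a)) → ∀ δ : ℝ,
    (∀ i, ∀ y ∈ KO g (𝒞.a i) (𝒞.K i), jn s (F (𝒞.a i)) y ≤ δ) →
    (frN H hP hφ hmp).cN s f ≤ C * δ := by
  induction s with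
  | zero =>
    refine ⟨1, zero_le_one, fun f F hF hr δ hδ => ?_⟩
    have h1 : ∀ p : Fr g, ‖(f : C(Fr g, ℝ)) p‖ ≤ δ := by
      intro p
      obtain ⟨i, hi, hi'⟩ := 𝒞.exists_mem p
      have h2 := hδ i _ hi'
      rw [jn_zero] at h2
      have h3 : (f : C(Fr g, ℝ)) p = F (𝒞.a i) (chF (𝒞.a i) p.1) := hr (𝒞.a i) p hi
      rw [h3]
      exact h2
    have h0 : 0 ≤ δ := (norm_nonneg _).trans (h1 (Classical.arbitrary _))
    rw [one_mul]
    exact (ContinuousMap.norm_le _ h0).2 h1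
  | succ s ih =>
    obtain ⟨C, hC, hih⟩ := ih
    have hZ : ∀ (k : Ix n) (i : Fin 𝒞.m), ∃ D : ℝ, 1 ≤ D ∧ ∀ y ∈ KO g (𝒞.a i) (𝒞.K i),
        jn s ((fieldN g k).Z (𝒞.a i)) y ≤ D := fun k i =>
      exists_jn_le (isCompact_KO (𝒞.sub i) (𝒞.compact i))
        fun y hy => (fieldN g k).smooth _ _ (𝒞.sub i hy.1)
    choose D hD1 hD using hZ
    set Dm : ℝ := 1 + ∑ k, ∑ i, D k i with hDm
    have hDle : ∀ k i, D k i ≤ Dm := by
      intro k i
      have h1 : D k i ≤ ∑ i, D k i := Finset.single_le_sum (f := fun i => D k i)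
        (fun j _ => zero_le_one.trans (hD1 k j)) (Finset.mem_univ i)
      have h2 : ∑ i, D k i ≤ ∑ k, ∑ i, D k i := Finset.single_le_sum (f := fun k => ∑ i, D k i)
        (fun j _ => Finset.sum_nonneg fun l _ => zero_le_one.trans (hD1 j l)) (Finset.mem_univ k)
      linarith
    have hDm0 : 0 ≤ Dm := by
      have : 0 ≤ ∑ k, ∑ i, D k i :=
        Finset.sum_nonneg fun k _ => Finset.sum_nonneg fun i _ => zero_le_one.trans (hD1 k i)
      linarith
    refine ⟨C + ∑ _k : Ix n, C * (((s + 1) * 2 ^ s) * Dm), by positivity,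
      fun f F hF hr δ hδ => ?_⟩
    change (frN H hP hφ hmp).cN s f + ∑ k, (frN H hP hφ hmp).cN s ((frN H hP hφ hmp).X k f) ≤ _
    have h1 : (frN H hP hφ hmp).cN s f ≤ C * δ :=
      hih f F hF hr δ fun i y hy => (jn_mono (Nat.le_succ s) _ _).trans (hδ i y hy)
    have h2 : ∀ k, (frN H hP hφ hmp).cN s ((frN H hP hφ hmp).X k f) ≤
        C * (((s + 1) * 2 ^ s) * Dm * δ) := by
      intro k
      refine hih _ (fun a => LZ ((fieldN g k).Z a) (F a)) (fun a y hy =>
        contDiffAt_LZ ((fieldN g k).smooth a y hy) (hF a y hy)) (fun a => ?_) _ fun i y hy => ?_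
      · exact Rep.dZ (isFlow_flowN H k) f.2 (hr a)
          fun y hy => (hF a y hy).differentiableAt (by simp)
      · have hy' := 𝒞.sub i hy.1
        have h3 := jn_LZ (m := s) ((fieldN g k).smooth _ y hy') (hF _ y hy')
        have h4 := hδ i y hy
        have h5 := (hD k i y hy).trans (hDle k i)
        have h6 := jn_nonneg s ((fieldN g k).Z (𝒞.a i)) y
        have h7 := jn_nonneg (s + 1) (F (𝒞.a i)) y
        refine h3.trans ?_
        have h8 : (0 : ℝ) ≤ (s + 1) * 2 ^ s := by positivity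
        exact mul_le_mul (mul_le_mul_of_nonneg_left h5 h8) h4 h7 (mul_nonneg h8 hDm0)
    refine (add_le_add h1 (Finset.sum_le_sum fun k _ => h2 k)).trans (le_of_eq ?_)
    simp only [Finset.sum_const, nsmul_eq_mul]
    ring

end Vale.Agent.P207.H566
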